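import Crest.Agent.R147.KN.Win
import Crest.Agent.R147.Sc113Def

/-!
# Row 147, block B6d: from the annealed statement at `p` to percolation at some `p' < p`

`Lay G B` packages the geometric data (blocks, layers, regions) in infinite volume.
`Lay.Fin` is the finite window of levels `≤ N`.
-/

set_option autoImplicit false
set_option linter.unusedSectionVars false

open Crest.ProbabilityR.Percolation MeasureTheory ProbabilityTheory unitInterval Filter
open Crest.Agent.R159 Crest.Agent.R159.Inf Crest.Agent.R147.KN Crest.Agent.R147.Sc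
open scoped ENNReal Topology

namespace Crest.Agent.R147.Win

universe u v

/-- Geometric data in infinite volume.  `blk b` : the edges of the block, `vtx b` its vertices,
`nb b` the vertices from which an open block is reached, `En n` the edges strictly below the
`n`-th screen, `Y v` the blocks near the site `v`, `Rg v` the region of the site `v`, and
`tub v b i` the tube leading from the block `b ∈ Y v` to the blocks of `Y (ch i v)`. -/
structure Lay {V : Type u} (G : SimpleGraph V) (B : Type v) where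
  /-- source -/
  A : Finset V
  blk : B → Finset (Sym2 V)
  nb : B → Finset V
  vtx : B → Finset V
  En : ℕ → Set (Sym2 V)
  Y : ℕ × ℕ → Finset B
  Rg : ℕ × ℕ → Finset (Sym2 V)
  tub : ℕ × ℕ → B → Bool → Finset (Sym2 V)
  tubA : Bool → Finset (Sym2 V)
  L : ℕ
  m : ℕ
  K : ℕ
  R : ℕ
  K_pos : 1 ≤ K
  R_pos : 1 ≤ R
  En_mono : Monotone En
  Y_zero : Y (0, 0) = ∅
  Rg_edge : ∀ v, ∀ e ∈ Rg v, e ∈ G.edgeSet
  blk_card : ∀ v, ∀ b ∈ Y v, (blk b).card ≤ L
  tub_card : ∀ v, ∀ b ∈ Y v, ∀ i, (tub v b i).card ≤ m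
  tubA_card : ∀ i, (tubA i).card ≤ m
  tub_Rg : ∀ v, ∀ b ∈ Y v, ∀ i, tub v b i ⊆ Rg v
  tubA_Rg : ∀ i, tubA i ⊆ Rg (0, 0)
  blk_En : ∀ v, ∀ b ∈ Y v, ∀ e ∈ blk b, e ∈ En (lev v + 1) ∧ e ∉ En (lev v)
  blk_Rg : ∀ v, ∀ b ∈ Y v, blk b ⊆ Rg v
  vtx_ne : ∀ v, ∀ b ∈ Y v, (vtx b).Nonempty
  vtx_nb : ∀ v, ∀ b ∈ Y v, vtx b ⊆ nb b
  nb_join : ∀ v, ∀ b ∈ Y v, ∀ x ∈ nb b, ∀ y ∈ vtx b,
    (openSubgraph G (↑(blk b) : Set (Sym2 V))).Reachable x y
  blk_overlap : ∀ v, ∀ b ∈ Y v, ∀ T : Finset B, T ⊆ Y v →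
    (∀ b' ∈ T, b = b' ∨ ¬ Disjoint (blk b) (blk b')) → T.card ≤ K
  Rg_En : ∀ v, ∀ e ∈ Rg v, e ∈ En (lev v + 1)
  Rg_low : ∀ v, 1 ≤ lev v → ∀ e ∈ Rg v, e ∉ En (lev v - 1)
  Rg_sep : ∀ v w, lev w = lev v → v.1 + R ≤ w.1 → Disjoint (Rg v) (Rg w)
  lay_fin : ∀ x : V, {n | ∃ v, lev v = n ∧ ∃ b ∈ Y v, x ∈ vtx b}.Finite

open Classical in
/-- number of blocks of `T` joined to `X` in the configuration `ω` -/
noncomputable def ntouch {V : Type u} (G : SimpleGraph V) {B : Type v} (nb : B → Finset V)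
    (T : Finset B) (X : Finset V) (ω : Set (Sym2 V)) : ℕ :=
  (T.filter (fun b' => ∃ x ∈ X, ∃ y ∈ nb b', (openSubgraph G ω).Reachable x y)).card

theorem ntouch_mono {V : Type u} (G : SimpleGraph V) {B : Type v} (nb : B → Finset V)
    (T : Finset B) (X : Finset V) {ω ω' : Set (Sym2 V)} (h : ω ⊆ ω') :
    ntouch G nb T X ω ≤ ntouch G nb T X ω' := by
  classical
  unfold ntouch
  refine Finset.card_le_card fun b hb => ?_
  rw [Finset.mem_filter] at hb ⊢
  obtain ⟨h1, x, hx, y, hy, hxy⟩ := hb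
  exact ⟨h1, x, hx, y, hy, hxy.mono (openSubgraph_mono G h)⟩

open Classical in
/-- The abstract finite renormalisation statement: the statement of helper113's `Sc.main`. -/
def ScStmt : Prop :=
  ∀ {W E : Type u} {B : Type v} [DecidableEq W] [DecidableEq E] [Fintype W] [DecidableEq B]
    {H : HG W E} {A : Finset W} {blk : B → Finset E} {nb vtx : B → Finset W}
    {En : ℕ → Finset E} {Y : ℕ × ℕ → Finset B} {Rg : ℕ × ℕ → Finset E} {q β : ℝ}
    {K M R N : ℕ} (_ : Scr H A blk nb vtx En Y Rg q β K M R N) (_ : 0 < q) (_ : 0 ≤ β)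
    (_ : 1 ≤ M) (_ : 1 ≤ K) (_ : 1 ≤ R) (_ : 1 ≤ N) {s : ℝ} (_ : 0 < s)
    (_ : s + (4 / (q * M) + 4 * β / s) ≤ (1 / 2) ^ (102 * R)) {Ω : Finset E}
    (_ : En (N + 1) ⊆ Ω),
    1 / 2 ≤ H.ex Ω (fun S => if ∃ v, lev v = N ∧ ∃ b ∈ Y v,
      ¬ Disjoint (H.cl S A) (vtx b) then 1 else 0)

namespace Lay

variable {V : Type u} {G : SimpleGraph V} {B : Type v} (D : Lay G B)

/-- sites with level at most `N` -/
def sites (N : ℕ) : Finset (ℕ × ℕ) :=
  (Finset.range (N + 1) ×ˢ Finset.range (N + 1)).filter (fun v => lev v ≤ N)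

theorem mem_sites {N : ℕ} {v : ℕ × ℕ} : v ∈ sites N ↔ lev v ≤ N := by
  unfold sites lev
  simp only [Finset.mem_filter, Finset.mem_product, Finset.mem_range]
  omega

open Classical in
/-- edges of the window of the first `N` levels -/
noncomputable def Om (N : ℕ) : Finset (Sym2 V) := (sites N).biUnion D.Rg

open Classical in
noncomputable def EnN (N n : ℕ) : Finset (Sym2 V) := (D.Om N).filter (fun e => e ∈ D.En n)

open Classical in
/-- vertices of the window -/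
noncomputable def Lam (N : ℕ) : Finset V :=
  D.A ∪ ((D.Om N).biUnion (fun e => e.toFinset)) ∪
    (sites N).biUnion (fun v => (D.Y v).biUnion (fun b => D.vtx b ∪ D.nb b))

theorem A_sub (N : ℕ) : D.A ⊆ D.Lam N := by
  classical
  intro x hx
  unfold Lam
  simp [hx]

theorem Om_sub (N : ℕ) : ∀ e ∈ D.Om N, ∀ x ∈ e, x ∈ D.Lam N := by
  classical
  intro e he x hx
  unfold Lam
  simp only [Finset.mem_union, Finset.mem_biUnion]
  exact Or.inl (Or.inr ⟨e, he, by simpa [Sym2.mem_toFinset] using hx⟩)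

theorem vtx_sub {N : ℕ} {v : ℕ × ℕ} (hv : lev v ≤ N) {b : B} (hb : b ∈ D.Y v) :
    D.vtx b ⊆ D.Lam N := by
  classical
  intro x hx
  unfold Lam
  simp only [Finset.mem_union, Finset.mem_biUnion]
  exact Or.inr ⟨v, mem_sites.2 hv, b, hb, Or.inl hx⟩

theorem nb_sub {N : ℕ} {v : ℕ × ℕ} (hv : lev v ≤ N) {b : B} (hb : b ∈ D.Y v) :
    D.nb b ⊆ D.Lam N := by
  classical
  intro x hx
  unfold Lam
  simp only [Finset.mem_union, Finset.mem_biUnion]
  exact Or.inr ⟨v, mem_sites.2 hv, b, hb, Or.inr hx⟩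

theorem Rg_sub_Om {N : ℕ} {v : ℕ × ℕ} (hv : lev v ≤ N) : D.Rg v ⊆ D.Om N := by
  classical
  unfold Om
  exact Finset.subset_biUnion_of_mem D.Rg (mem_sites.2 hv)

theorem Om_edge (N : ℕ) : ∀ e ∈ D.Om N, e ∈ G.edgeSet := by
  classical
  intro e he
  unfold Om at he
  rw [Finset.mem_biUnion] at he
  obtain ⟨v, _, he⟩ := he
  exact D.Rg_edge v e he

/-- a block touched in the window -/
theorem touch_iff {N : ℕ} {p : ℝ} {h0 : 0 ≤ p} {h1 : p < 1}
    [DecidableEq {x // x ∈ D.Lam N}] [DecidableEq (Sym2 V)]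
    {S : Finset (Sym2 V)} (hS : S ⊆ D.Om N) {X Z : Finset V} (hX : X ⊆ D.Lam N)
    (hZ : Z ⊆ D.Lam N) :
    ¬ Disjoint (res (D.Lam N) Z) ((hg (D.Lam N) p h0 h1).cl S (res (D.Lam N) X))
      ↔ ∃ x ∈ X, ∃ y ∈ Z, (openSubgraph G (↑S : Set (Sym2 V))).Reachable x y := by
  classical
  have hS1 : ∀ e ∈ S, e ∈ G.edgeSet := fun e he => D.Om_edge N e (hS he)
  have hS2 : ∀ e ∈ S, ∀ x ∈ e, x ∈ D.Lam N := fun e he => D.Om_sub N e (hS he)
  rw [Finset.not_disjoint_iff]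
  constructor
  · rintro ⟨y, hy, hy'⟩
    rw [mem_res] at hy
    have := (mem_cl_iff (G := G) (p := p) (h0 := h0) (h1 := h1) hS1 hS2
      (res (D.Lam N) X) y).1 (by convert hy')
    obtain ⟨x, hx, hxy⟩ := this
    rw [mem_res] at hx
    exact ⟨x.1, hx, y.1, hy, hxy⟩
  · rintro ⟨x, hx, y, hy, hxy⟩
    refine ⟨⟨y, hZ hy⟩, mem_res.2 hy, ?_⟩
    have := (mem_cl_iff (G := G) (p := p) (h0 := h0) (h1 := h1) hS1 hS2
      (res (D.Lam N) X) ⟨y, hZ hy⟩).2 ⟨⟨x, hX hx⟩, mem_res.2 hx, hxy⟩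
    convert this

end Lay

theorem exists_param (p : I) (hp0 : 0 < (p : ℝ)) (L m R : ℕ) (M : ℕ) (hM : 1 ≤ M) (β s : ℝ)
    (hnum : s + (4 / ((p : ℝ) ^ L * M) + 4 * β / s) < (1 / 2) ^ (102 * R)) :
    ∃ p' : I, 0 < (p' : ℝ) ∧ (p' : ℝ) < p ∧
      s + (4 / ((p' : ℝ) ^ L * M) + 4 * (β + m * |(p : ℝ) - p'|) / s) ≤ (1 / 2) ^ (102 * R) := by
  have h1 : ∀ᶠ x in 𝓝[<] (p : ℝ),
      s + (4 / (x ^ L * M) + 4 * (β + m * |(p : ℝ) - x|) / s) < (1 / 2) ^ (102 * R) := by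
    have hne : (p : ℝ) ^ L * M ≠ 0 := by
      have : (0 : ℝ) < M := by exact_mod_cast hM
      positivity
    have hc : ContinuousAt (fun x : ℝ =>
        s + (4 / (x ^ L * M) + 4 * (β + m * |(p : ℝ) - x|) / s)) (p : ℝ) := by
      refine continuousAt_const.add (ContinuousAt.add ?_ ?_)
      · exact continuousAt_const.div (by fun_prop) hne
      · exact ContinuousAt.div_const (by fun_prop) _
    have h' : (fun x : ℝ =>
        s + (4 / (x ^ L * M) + 4 * (β + m * |(p : ℝ) - x|) / s)) (p : ℝ)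
          < (1 / 2) ^ (102 * R) := by
      simpa using hnum
    have := hc.tendsto.eventually_lt_const h'
    exact this.filter_mono nhdsWithin_le_nhds
  have h3 : ∀ᶠ x in 𝓝[<] (p : ℝ), 0 < x :=
    (lt_mem_nhds hp0).filter_mono nhdsWithin_le_nhds
  have h4 : ∀ᶠ x in 𝓝[<] (p : ℝ), x < (p : ℝ) :=
    (self_mem_nhdsWithin : Set.Iio (p : ℝ) ∈ 𝓝[<] (p : ℝ))
  obtain ⟨x, h1, h3, h4⟩ := (h1.and (h3.and h4)).exists
  exact ⟨⟨x, h3.le, h4.le.trans p.2.2⟩, h3, h4, h1.le⟩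

theorem ite_inst' (P Q : Prop) (h1 : Decidable P) (h2 : Decidable Q) (h : P ↔ Q) :
    (@ite ℝ P h1 1 0) = (@ite ℝ Q h2 1 0) := by
  by_cases hP : P
  · rw [if_pos hP, if_pos (h.1 hP)]
  · rw [if_neg hP, if_neg (fun hQ => hP (h.2 hQ))]

/-- **B6d.**  The annealed statement at `p` gives percolation at some `p' < p`. -/
theorem exists_lt_pos {V : Type u} [Countable V] {G : SimpleGraph V} {B : Type v}
    (D : Lay G B) (hSc : ScStmt.{u, v}) (p : I) (hp0 : 0 < (p : ℝ))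
    (M : ℕ) (hM : 1 ≤ M) (β : ℝ) (hβ : 0 ≤ β) (s : ℝ) (hs : 0 < s)
    (hnum : s + (4 / ((p : ℝ) ^ D.L * M) + 4 * β / s) < (1 / 2) ^ (102 * D.R))
    (hANN : ∀ v, v ≠ (0, 0) → ∀ b ∈ D.Y v, ∀ i : Bool,
      (setBernoulli G.edgeSet p).real
        {ω | ntouch G D.nb (D.Y (ch i v)) (D.vtx b) (ω ∩ (↑(D.tub v b i) : Set (Sym2 V)))
          < M * D.K} ≤ β)
    (hANN0 : ∀ i : Bool,
      (setBernoulli G.edgeSet p).real
        {ω | ntouch G D.nb (D.Y (ch i (0, 0))) D.A (ω ∩ (↑(D.tubA i) : Set (Sym2 V)))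
          < M * D.K} ≤ β) :
    ∃ p' : I, (p' : ℝ) < p ∧ 0 < setBernoulli G.edgeSet p' {ω | HasInfiniteCluster G ω} := by
  classical
  obtain ⟨p', hp'0, hlt, hnum'⟩ := exists_param p hp0 D.L D.m D.R M hM β s hnum
  refine ⟨p', hlt, ?_⟩
  have h0 : 0 ≤ (p' : ℝ) := p'.2.1
  have h1 : (p' : ℝ) < 1 := hlt.trans_le p.2.2
  set β' : ℝ := β + D.m * |(p : ℝ) - p'| with hβ'
  have hβ'0 : 0 ≤ β' := by positivity
  -- transfer of an annealed bound
  have htr : ∀ E : Finset (Sym2 V), (∀ e ∈ E, e ∈ G.edgeSet) → E.card ≤ D.m →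
      ∀ Q : Set (Sym2 V) → Prop,
      (setBernoulli G.edgeSet p).real {ω | Q (ω ∩ (↑E : Set (Sym2 V)))} ≤ β →
      (setBernoulli G.edgeSet p').real {ω | Q (ω ∩ (↑E : Set (Sym2 V)))} ≤ β' := by
    intro E hE hEc Q hQ
    have h := abs_real_sub_le G.edgeSet p p' E (fun e he => hE e he) Q
    have h2 : (E.card : ℝ) * |(p : ℝ) - p'| ≤ D.m * |(p : ℝ) - p'| :=
      mul_le_mul_of_nonneg_right (by exact_mod_cast hEc) (abs_nonneg _)
    have h3 := (abs_le.1 h).1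
    linarith
  refine pos_of_layers G p' D.A
    (fun n => {x | ∃ v, lev v = n + 1 ∧ ∃ b ∈ D.Y v, x ∈ D.vtx b})
    (fun x => ?_) (1 / 2) (by norm_num) ?_
  · have := (D.lay_fin x).preimage (f := fun n : ℕ => n + 1) (fun a _ b _ h => by simpa using h)
    exact this
  intro N0
  set N := N0 + 1 with hN
  -- the window has one more level
  set Λ := D.Lam (N + 1) with hΛ
  let H := hg Λ (p' : ℝ) h0 h1
  have hEnN : ∀ n, ∀ e, e ∈ D.EnN (N + 1) n ↔ e ∈ D.Om (N + 1) ∧ e ∈ D.En n := by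
    intro n e
    unfold Lay.EnN
    simp
  have hlev : ∀ v i, lev (ch i v) = lev v + 1 := by
    intro v i
    unfold lev ch
    split_ifs <;> simp only <;> omega
  have hANNgen : ∀ v, lev v ≤ N → ∀ X : Finset V, X ⊆ Λ → ∀ i : Bool,
      ∀ E : Finset (Sym2 V), E ⊆ D.Rg v → E.card ≤ D.m →
      (setBernoulli G.edgeSet p).real
        {ω | ntouch G D.nb (D.Y (ch i v)) X (ω ∩ (↑E : Set (Sym2 V))) < M * D.K} ≤ β →
      H.ex (D.Rg v) (fun S => bad (Tgt (fun b => res Λ (D.nb b)) (D.Y (ch i v)) (M * D.K))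
        (H.cl S (res Λ X))) ≤ β' := by
    intro v hv X hX i E hE hEm hβX
    have hlw : lev (ch i v) ≤ N + 1 := by rw [hlev]; omega
    have h3' := htr E (fun e he => D.Rg_edge v e (hE he)) hEm
      (fun ω => ntouch G D.nb (D.Y (ch i v)) X ω < M * D.K) hβX
    have h3 : (setBernoulli G.edgeSet p').real
        {ω | ntouch G D.nb (D.Y (ch i v)) X (ω ∩ (↑(D.Rg v) : Set (Sym2 V))) < M * D.K} ≤ β' := by
      refine le_trans (measureReal_mono ?_) h3'
      intro ω hω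
      refine lt_of_le_of_lt (ntouch_mono G D.nb (D.Y (ch i v)) X ?_) hω
      exact Set.inter_subset_inter_right _ (Finset.coe_subset.2 hE)
    have h4 := real_eq_ex H G.edgeSet p' (fun _ => rfl) (D.Rg v) (fun e he => D.Rg_edge v e he)
      (fun ω => ntouch G D.nb (D.Y (ch i v)) X ω < M * D.K)
    refine le_trans (le_of_eq (Eq.trans ?_ h4.symm)) h3
    refine H.ex_congr fun S hS => ?_
    have hSO : S ⊆ D.Om (N + 1) := hS.trans (D.Rg_sub_Om (by omega))
    have hcard : ((D.Y (ch i v)).filter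
        (fun b' => ¬ Disjoint (res Λ (D.nb b')) (H.cl S (res Λ X)))).card
          = ntouch G D.nb (D.Y (ch i v)) X (↑S : Set (Sym2 V)) := by
      unfold ntouch
      congr 1
      ext b'
      simp only [Finset.mem_filter]
      refine and_congr_right fun hb' => ?_
      exact D.touch_iff hSO hX (D.nb_sub hlw hb')
    unfold bad Tgt
    rw [hcard]
    by_cases hc : M * D.K ≤ ntouch G D.nb (D.Y (ch i v)) X (↑S : Set (Sym2 V))
    · rw [if_pos hc, if_neg (not_lt.2 hc)]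
    · rw [if_neg hc, if_pos (not_le.1 hc)]
  have hScr : Scr H (res Λ D.A) D.blk (fun b => res Λ (D.nb b)) (fun b => res Λ (D.vtx b))
      (D.EnN (N + 1)) D.Y D.Rg ((p' : ℝ) ^ D.L) β' D.K M D.R N := by
    refine ⟨?_, D.Y_zero, ?_, ?_, ?_, ?_, ?_, ?_, ?_, ?_, ?_, ?_, ?_, ?_, ?_⟩
    · -- monotone
      intro n n' h e he
      rw [hEnN] at he ⊢
      exact ⟨he.1, D.En_mono h he.2⟩
    · intro v hv b hb e he
      have h2 := D.blk_En v b hb e he
      have h3 : e ∈ D.Om (N + 1) := D.Rg_sub_Om (by omega) (D.blk_Rg v b hb he)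
      rw [hEnN]
      exact ⟨h3, h2.1⟩
    · intro v hv b hb
      rw [Finset.disjoint_left]
      intro e he he'
      rw [hEnN] at he'
      exact (D.blk_En v b hb e he).2 he'.2
    · intro v hv b hb
      exact D.blk_Rg v b hb
    · intro v hv b hb
      obtain ⟨x, hx⟩ := D.vtx_ne v b hb
      exact ⟨⟨x, D.vtx_sub (by omega) hb hx⟩, mem_res.2 hx⟩
    · intro v hv b hb x hx
      rw [mem_res] at hx ⊢
      exact D.vtx_nb v b hb hx
    · intro v hv b hb x hx y hy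
      rw [mem_res] at hx hy
      have hsub : D.blk b ⊆ D.Om (N + 1) :=
        (D.blk_Rg v b hb).trans (D.Rg_sub_Om (by omega))
      rw [mem_cl_iff (G := G) (fun e he => D.Om_edge (N + 1) e (hsub he))
        (fun e he => D.Om_sub (N + 1) e (hsub he))]
      exact ⟨x, Finset.mem_singleton_self x, D.nb_join v b hb x.1 hx y.1 hy⟩
    · intro v hv b hb
      have : ∏ e ∈ D.blk b, H.p e = (p' : ℝ) ^ (D.blk b).card := by
        calc ∏ e ∈ D.blk b, H.p e = ∏ e ∈ D.blk b, (p' : ℝ) := rfl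
          _ = _ := Finset.prod_const _
      rw [this]
      exact pow_le_pow_of_le_one h0 h1.le (D.blk_card v b hb)
    · intro v hv b hb
      refine D.blk_overlap v b hb _ (Finset.filter_subset _ _) ?_
      intro b' hb'
      rw [Finset.mem_filter] at hb'
      exact hb'.2
    · intro v hv e he
      rw [hEnN]
      exact ⟨D.Rg_sub_Om (by omega) he, D.Rg_En v e he⟩
    · intro v hv hv1
      rw [Finset.disjoint_left]
      intro e he he'
      rw [hEnN] at he'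
      exact D.Rg_low v hv1 e he he'.2
    · intro v w _ hvw hR
      exact D.Rg_sep v w hvw hR
    · intro v hv hv0 b hb i
      exact hANNgen v hv (D.vtx b) (D.vtx_sub (by omega) hb) i _ (D.tub_Rg v b hb i)
        (D.tub_card v b hb i) (hANN v hv0 b hb i)
    · intro i
      exact hANNgen (0, 0) (by simp [lev]) D.A (D.A_sub _) i _ (D.tubA_Rg i)
        (D.tubA_card i) (hANN0 i)
  have key := hSc hScr (pow_pos hp'0 _) hβ'0 hM D.K_pos D.R_pos (Nat.succ_pos _) hs hnum'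
    (Ω := D.Om (N + 1)) (fun e he => ((hEnN _ e).1 he).1)
  refine key.trans ?_
  have hmono : (setBernoulli G.edgeSet p').real
      {ω | ∃ x ∈ D.A, ∃ y ∈ {x | ∃ v, lev v = N ∧ ∃ b ∈ D.Y v, x ∈ D.vtx b},
        (openSubgraph G (ω ∩ (↑(D.Om (N + 1)) : Set (Sym2 V)))).Reachable x y}
      ≤ (setBernoulli G.edgeSet p').real
      {ω | ∃ x ∈ D.A, ∃ y ∈ {x | ∃ v, lev v = N ∧ ∃ b ∈ D.Y v, x ∈ D.vtx b},
        (openSubgraph G ω).Reachable x y} := by
    refine measureReal_mono ?_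
    rintro ω ⟨x, hx, y, hy, hxy⟩
    exact ⟨x, hx, y, hy, hxy.mono (openSubgraph_mono G Set.inter_subset_left)⟩
  have h4 := real_eq_ex H G.edgeSet p' (fun _ => rfl) (D.Om (N + 1))
    (fun e he => D.Om_edge (N + 1) e he)
    (fun ω => ∃ x ∈ D.A, ∃ y ∈ {x | ∃ v, lev v = N ∧ ∃ b ∈ D.Y v, x ∈ D.vtx b},
        (openSubgraph G ω).Reachable x y)
  refine le_trans (le_of_eq (Eq.trans ?_ h4.symm)) hmono
  refine H.ex_congr fun S hS => ?_
  refine (ite_inst' _ _ _ _ ?_)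
  constructor
  · rintro ⟨v, hv, b, hb, hd⟩
    rw [disjoint_comm] at hd
    obtain ⟨x, hx, y, hy, hxy⟩ :=
      (D.touch_iff hS (D.A_sub _) (D.vtx_sub (by omega) hb)).1 hd
    exact ⟨x, hx, y, ⟨v, hv, b, hb, hy⟩, hxy⟩
  · rintro ⟨x, hx, y, ⟨v, hv, b, hb, hy⟩, hxy⟩
    refine ⟨v, hv, b, hb, ?_⟩
    rw [disjoint_comm]
    exact (D.touch_iff hS (D.A_sub _) (D.vtx_sub (by omega) hb)).2 ⟨x, hx, y, hy, hxy⟩

/-- the annealed statement is impossible at (or below) the critical value -/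
theorem false_of_le_critical {V : Type u} [Countable V] {G : SimpleGraph V} {B : Type v}
    (D : Lay G B) (hSc : ScStmt.{u, v}) (p : I) (hp0 : 0 < (p : ℝ))
    (hpc : (p : ℝ) ≤ bondCriticalValue G)
    (M : ℕ) (hM : 1 ≤ M) (β : ℝ) (hβ : 0 ≤ β) (s : ℝ) (hs : 0 < s)
    (hnum : s + (4 / ((p : ℝ) ^ D.L * M) + 4 * β / s) < (1 / 2) ^ (102 * D.R))
    (hANN : ∀ v, v ≠ (0, 0) → ∀ b ∈ D.Y v, ∀ i : Bool,
      (setBernoulli G.edgeSet p).real
        {ω | ntouch G D.nb (D.Y (ch i v)) (D.vtx b) (ω ∩ (↑(D.tub v b i) : Set (Sym2 V)))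
          < M * D.K} ≤ β)
    (hANN0 : ∀ i : Bool,
      (setBernoulli G.edgeSet p).real
        {ω | ntouch G D.nb (D.Y (ch i (0, 0))) D.A (ω ∩ (↑(D.tubA i) : Set (Sym2 V)))
          < M * D.K} ≤ β) : False := by
  obtain ⟨p', hlt, hpos⟩ := exists_lt_pos D hSc p hp0 M hM β hβ s hs hnum hANN hANN0
  exact not_pos_of_lt_bondCriticalValue G p' (hlt.trans_le hpc) hpos

end Crest.Agent.R147.Win
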