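import Mathlib

/-!
# Finite hypergraph percolation: expectation, clusters, exploration

`HG V E` : hyperedges `e : E` with vertex set `inc e : Finset V` and opening probability
`p e ∈ [0,1)`.  A configuration on a finite set `A` of hyperedges is a subset `S ⊆ A` (open
hyperedges).  `ex A f` is the expectation of `f S` over the product measure on `A`.
`cl S D` is the union of the clusters of the vertices of `D` in the configuration `S`.
`off A T` are the hyperedges of `A` not touching `T`.
-/

set_option autoImplicit false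
set_option linter.unusedSectionVars false

open Finset

namespace Crest.Agent.R147.KN

/-- finite hypergraph with independent hyperedges -/
structure HG (V E : Type*) where
  inc : E → Finset V
  p : E → ℝ
  p_nonneg : ∀ e, 0 ≤ p e
  p_lt : ∀ e, p e < 1

namespace HG

variable {V E : Type*} [DecidableEq V] [DecidableEq E] (G : HG V E)

/-! ### expectation -/

/-- weight of the configuration `S` on `A` -/
noncomputable def wt (A S : Finset E) : ℝ :=
  (∏ e ∈ S, G.p e) * ∏ e ∈ A \ S, (1 - G.p e)

/-- expectation over configurations on `A` -/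
noncomputable def ex (A : Finset E) (f : Finset E → ℝ) : ℝ :=
  ∑ S ∈ A.powerset, G.wt A S * f S

theorem wt_nonneg (A S : Finset E) : 0 ≤ G.wt A S :=
  mul_nonneg (Finset.prod_nonneg fun e _ => G.p_nonneg e)
    (Finset.prod_nonneg fun e _ => by linarith [G.p_lt e])

theorem ex_congr {A : Finset E} {f g : Finset E → ℝ} (h : ∀ S, S ⊆ A → f S = g S) :
    G.ex A f = G.ex A g := by
  unfold ex
  refine Finset.sum_congr rfl fun S hS => ?_
  rw [h S (Finset.mem_powerset.1 hS)]

theorem ex_mono {A : Finset E} {f g : Finset E → ℝ} (h : ∀ S, S ⊆ A → f S ≤ g S) :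
    G.ex A f ≤ G.ex A g := by
  unfold ex
  refine Finset.sum_le_sum fun S hS => ?_
  exact mul_le_mul_of_nonneg_left (h S (Finset.mem_powerset.1 hS)) (G.wt_nonneg A S)

theorem ex_nonneg {A : Finset E} {f : Finset E → ℝ} (h : ∀ S, S ⊆ A → 0 ≤ f S) :
    0 ≤ G.ex A f := by
  unfold ex
  refine Finset.sum_nonneg fun S hS => ?_
  exact mul_nonneg (G.wt_nonneg A S) (h S (Finset.mem_powerset.1 hS))

theorem ex_add (A : Finset E) (f g : Finset E → ℝ) :
    G.ex A (fun S => f S + g S) = G.ex A f + G.ex A g := by
  unfold ex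
  rw [← Finset.sum_add_distrib]
  exact Finset.sum_congr rfl fun S _ => by ring

theorem ex_sub (A : Finset E) (f g : Finset E → ℝ) :
    G.ex A (fun S => f S - g S) = G.ex A f - G.ex A g := by
  unfold ex
  rw [← Finset.sum_sub_distrib]
  exact Finset.sum_congr rfl fun S _ => by ring

theorem ex_neg (A : Finset E) (f : Finset E → ℝ) :
    G.ex A (fun S => - f S) = - G.ex A f := by
  unfold ex
  rw [← Finset.sum_neg_distrib]
  exact Finset.sum_congr rfl fun S _ => by ring

theorem ex_mul_left (A : Finset E) (c : ℝ) (f : Finset E → ℝ) :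
    G.ex A (fun S => c * f S) = c * G.ex A f := by
  unfold ex
  rw [Finset.mul_sum]
  exact Finset.sum_congr rfl fun S _ => by ring

theorem ex_mul_right (A : Finset E) (c : ℝ) (f : Finset E → ℝ) :
    G.ex A (fun S => f S * c) = G.ex A f * c := by
  unfold ex
  rw [Finset.sum_mul]
  exact Finset.sum_congr rfl fun S _ => by ring

theorem ex_sum {ι : Type*} (A : Finset E) (s : Finset ι) (f : ι → Finset E → ℝ) :
    G.ex A (fun S => ∑ i ∈ s, f i S) = ∑ i ∈ s, G.ex A (f i) := by
  unfold ex
  rw [Finset.sum_comm]
  exact Finset.sum_congr rfl fun S _ => by rw [Finset.mul_sum]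

theorem ex_insert {A : Finset E} {e : E} (he : e ∉ A) (f : Finset E → ℝ) :
    G.ex (insert e A) f
      = (1 - G.p e) * G.ex A f + G.p e * G.ex A (fun S => f (insert e S)) := by
  unfold ex
  rw [Finset.sum_powerset_insert he, Finset.mul_sum, Finset.mul_sum]
  congr 1
  · refine Finset.sum_congr rfl fun S hS => ?_
    have hS' : S ⊆ A := Finset.mem_powerset.1 hS
    have he' : e ∉ S := fun h => he (hS' h)
    have : insert e A \ S = insert e (A \ S) := by
      rw [Finset.insert_sdiff_of_notMem _ he']
    unfold wt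
    rw [this, Finset.prod_insert (by simp [he])]
    ring
  · refine Finset.sum_congr rfl fun S hS => ?_
    have hS' : S ⊆ A := Finset.mem_powerset.1 hS
    have he' : e ∉ S := fun h => he (hS' h)
    have : insert e A \ insert e S = A \ S := by
      ext x
      simp only [Finset.mem_sdiff, Finset.mem_insert, not_or]
      constructor
      · rintro ⟨h1, h2, h3⟩
        rcases h1 with h1 | h1
        · exact absurd h1 h2
        · exact ⟨h1, h3⟩
      · rintro ⟨h1, h2⟩
        refine ⟨Or.inr h1, ?_, h2⟩
        rintro rfl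
        exact he h1
    unfold wt
    rw [this, Finset.prod_insert he']
    ring

@[simp] theorem ex_empty (f : Finset E → ℝ) : G.ex ∅ f = f ∅ := by
  simp [ex, wt]

theorem ex_const (A : Finset E) (c : ℝ) : G.ex A (fun _ => c) = c := by
  induction A using Finset.induction_on with
  | empty => simp
  | insert e A he ih => rw [G.ex_insert he, ih]; ring

theorem ex_union {A B : Finset E} (h : Disjoint A B) (f : Finset E → ℝ) :
    G.ex (A ∪ B) f = G.ex A (fun S => G.ex B (fun T => f (S ∪ T))) := by
  induction A using Finset.induction_on generalizing f with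
  | empty => simp
  | insert e A he ih =>
    have hA : Disjoint A B := Finset.disjoint_of_subset_left (Finset.subset_insert _ _) h
    have heB : e ∉ A ∪ B := by
      rw [Finset.mem_union, not_or]
      exact ⟨he, Finset.disjoint_left.1 h (Finset.mem_insert_self _ _)⟩
    rw [Finset.insert_union, G.ex_insert heB, G.ex_insert he, ih hA, ih hA]
    simp only [Finset.insert_union]

/-- replace one factor: expectation over `A` of a function of `S ∩ B`, `B ⊆ A` -/
theorem ex_sub_config {A B : Finset E} (h : B ⊆ A) (f : Finset E → ℝ) :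
    G.ex A (fun S => f (S ∩ B)) = G.ex B f := by
  have hAB : A = B ∪ (A \ B) := by rw [Finset.union_sdiff_of_subset h]
  have hd : Disjoint B (A \ B) := Finset.disjoint_sdiff
  conv_lhs => rw [hAB]
  rw [G.ex_union hd]
  refine G.ex_congr fun S hS => ?_
  have : ∀ T, T ⊆ A \ B → f ((S ∪ T) ∩ B) = f S := by
    intro T hT
    congr 1
    ext x
    simp only [Finset.mem_inter, Finset.mem_union]
    constructor
    · rintro ⟨h1 | h1, h2⟩
      · exact h1
      · exact absurd h2 (Finset.mem_sdiff.1 (hT h1)).2
    · intro h1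
      exact ⟨Or.inl h1, hS h1⟩
  rw [G.ex_congr this, G.ex_const]

theorem ex_le_of_le {A : Finset E} {f : Finset E → ℝ} {c : ℝ} (h : ∀ S, S ⊆ A → f S ≤ c) :
    G.ex A f ≤ c := by
  have := G.ex_mono (A := A) (f := f) (g := fun _ => c) h
  rwa [G.ex_const] at this

theorem le_ex_of_le {A : Finset E} {f : Finset E → ℝ} {c : ℝ} (h : ∀ S, S ⊆ A → c ≤ f S) :
    c ≤ G.ex A f := by
  have := G.ex_mono (A := A) (f := fun _ => c) (g := f) h
  rwa [G.ex_const] at this

/-! ### saturated sets and clusters -/

/-- `T` is saturated for the configuration `S`: each open hyperedge is inside or outside -/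
def Sat (S : Finset E) (T : Finset V) : Prop :=
  ∀ e ∈ S, G.inc e ⊆ T ∨ Disjoint (G.inc e) T

theorem Sat.mono {G : HG V E} {S S' : Finset E} {T : Finset V} (h : G.Sat S' T) (hS : S ⊆ S') :
    G.Sat S T := fun e he => h e (hS he)

theorem Sat.union {G : HG V E} {S : Finset E} {T T' : Finset V} (h : G.Sat S T)
    (h' : G.Sat S T') : G.Sat S (T ∪ T') := by
  intro e he
  rcases h e he with h1 | h1
  · exact Or.inl (h1.trans Finset.subset_union_left)
  · rcases h' e he with h2 | h2
    · exact Or.inl (h2.trans Finset.subset_union_right)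
    · exact Or.inr (Finset.disjoint_union_right.2 ⟨h1, h2⟩)

/-- hyperedges of `A` not touching `T` -/
def off (A : Finset E) (T : Finset V) : Finset E := A.filter (fun e => Disjoint (G.inc e) T)

/-- hyperedges of `A` touching `T` -/
def tch (A : Finset E) (T : Finset V) : Finset E := A.filter (fun e => ¬ Disjoint (G.inc e) T)

theorem mem_off {A : Finset E} {T : Finset V} {e : E} :
    e ∈ G.off A T ↔ e ∈ A ∧ Disjoint (G.inc e) T := by simp [off]

theorem mem_tch {A : Finset E} {T : Finset V} {e : E} :
    e ∈ G.tch A T ↔ e ∈ A ∧ ¬ Disjoint (G.inc e) T := by simp [tch]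

theorem off_subset (A : Finset E) (T : Finset V) : G.off A T ⊆ A := Finset.filter_subset _ _

theorem tch_subset (A : Finset E) (T : Finset V) : G.tch A T ⊆ A := Finset.filter_subset _ _

theorem tch_union_off (A : Finset E) (T : Finset V) : G.tch A T ∪ G.off A T = A := by
  ext e
  simp only [Finset.mem_union, mem_off, mem_tch]
  tauto

theorem disj_tch_off (A : Finset E) (T : Finset V) : Disjoint (G.tch A T) (G.off A T) := by
  rw [Finset.disjoint_left]
  intro e h1 h2
  exact ((G.mem_tch).1 h1).2 ((G.mem_off).1 h2).2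

@[simp] theorem off_empty (A : Finset E) : G.off A ∅ = A := by
  ext e; simp [off]

theorem off_mono {A B : Finset E} (h : A ⊆ B) (T : Finset V) : G.off A T ⊆ G.off B T := by
  intro e he
  rw [mem_off] at he ⊢
  exact ⟨h he.1, he.2⟩

theorem off_anti (A : Finset E) {T T' : Finset V} (h : T ⊆ T') : G.off A T' ⊆ G.off A T := by
  intro e he
  rw [mem_off] at he ⊢
  exact ⟨he.1, Finset.disjoint_of_subset_right h he.2⟩

theorem off_off (A : Finset E) (T T' : Finset V) : G.off (G.off A T) T' = G.off A (T ∪ T') := by
  ext e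
  simp only [mem_off, Finset.disjoint_union_right]
  tauto

theorem off_union_config (S S' : Finset E) (T : Finset V) :
    G.off (S ∪ S') T = G.off S T ∪ G.off S' T := by
  ext e
  simp only [mem_off, Finset.mem_union]
  tauto

variable [Fintype V]

open Classical in
/-- cluster of the vertex set `D` in the configuration `S` -/
noncomputable def cl (S : Finset E) (D : Finset V) : Finset V :=
  Finset.univ.filter (fun y => ∀ T : Finset V, D ⊆ T → G.Sat S T → y ∈ T)

theorem mem_cl {S : Finset E} {D : Finset V} {y : V} :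
    y ∈ G.cl S D ↔ ∀ T : Finset V, D ⊆ T → G.Sat S T → y ∈ T := by
  classical
  simp [cl]

theorem subset_cl (S : Finset E) (D : Finset V) : D ⊆ G.cl S D :=
  fun _ hx => (G.mem_cl).2 fun _ hD _ => hD hx

theorem cl_subset {S : Finset E} {D T : Finset V} (hD : D ⊆ T) (hT : G.Sat S T) :
    G.cl S D ⊆ T := fun _ hy => (G.mem_cl).1 hy T hD hT

theorem sat_cl (S : Finset E) (D : Finset V) : G.Sat S (G.cl S D) := by
  intro e he
  by_cases h : Disjoint (G.inc e) (G.cl S D)
  · exact Or.inr h
  · left
    rw [Finset.not_disjoint_iff] at h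
    obtain ⟨x, hx, hx'⟩ := h
    intro y hy
    rw [mem_cl]
    intro T hD hT
    have hxT : x ∈ T := (G.mem_cl).1 hx' T hD hT
    rcases hT e he with h1 | h1
    · exact h1 hy
    · exact absurd hxT (Finset.disjoint_left.1 h1 hx)

theorem sat_compl {S : Finset E} {T : Finset V} (h : G.Sat S T) : G.Sat S Tᶜ := by
  intro e he
  rcases h e he with h1 | h1
  · right
    rw [Finset.disjoint_left]
    intro x hx hx'
    exact (Finset.mem_compl.1 hx') (h1 hx)
  · left
    intro x hx
    rw [Finset.mem_compl]
    exact Finset.disjoint_left.1 h1 hx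

theorem cl_mono {S S' : Finset E} {D D' : Finset V} (hS : S ⊆ S') (hD : D ⊆ D') :
    G.cl S D ⊆ G.cl S' D' :=
  G.cl_subset (hD.trans (G.subset_cl S' D')) ((G.sat_cl S' D').mono hS)

theorem cl_eq_of_sat {S : Finset E} {T : Finset V} (h : G.Sat S T) : G.cl S T = T :=
  Finset.Subset.antisymm (G.cl_subset (Finset.Subset.refl _) h) (G.subset_cl S T)

theorem cl_cl (S : Finset E) (D : Finset V) : G.cl S (G.cl S D) = G.cl S D :=
  G.cl_eq_of_sat (G.sat_cl S D)

theorem cl_union (S : Finset E) (D D' : Finset V) :
    G.cl S (D ∪ D') = G.cl S D ∪ G.cl S D' := by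
  apply Finset.Subset.antisymm
  · refine G.cl_subset ?_ ((G.sat_cl S D).union (G.sat_cl S D'))
    exact Finset.union_subset_union (G.subset_cl S D) (G.subset_cl S D')
  · exact Finset.union_subset (G.cl_mono (Finset.Subset.refl _) Finset.subset_union_left)
      (G.cl_mono (Finset.Subset.refl _) Finset.subset_union_right)

theorem disj_cl_of_sat {S : Finset E} {D T : Finset V} (hT : G.Sat S T) (hD : Disjoint D T) :
    Disjoint (G.cl S D) T := by
  have h : G.cl S D ⊆ Tᶜ := by
    refine G.cl_subset ?_ (G.sat_compl hT)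
    intro x hx
    rw [Finset.mem_compl]
    exact Finset.disjoint_left.1 hD hx
  rw [Finset.disjoint_left]
  intro x hx hx'
  exact (Finset.mem_compl.1 (h hx)) hx'

theorem mem_cl_symm {S : Finset E} {x y : V} (h : y ∈ G.cl S {x}) : x ∈ G.cl S {y} := by
  by_contra hx
  have hd : Disjoint ({x} : Finset V) (G.cl S {y}) := by
    rw [Finset.disjoint_singleton_left]; exact hx
  have := G.disj_cl_of_sat (G.sat_cl S {y}) hd
  exact (Finset.disjoint_left.1 this h) (G.subset_cl S {y} (Finset.mem_singleton_self y))

theorem cl_singleton_eq {S : Finset E} {x y : V} (h : y ∈ G.cl S {x}) :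
    G.cl S {y} = G.cl S {x} := by
  apply Finset.Subset.antisymm
  · exact G.cl_subset (by rw [Finset.singleton_subset_iff]; exact h) (G.sat_cl S {x})
  · exact G.cl_subset (by rw [Finset.singleton_subset_iff]; exact G.mem_cl_symm h)
      (G.sat_cl S {y})

/-- a vertex set and a single vertex: either the cluster of `x` meets `D`-cluster or is disjoint -/
theorem mem_cl_iff_exists {S : Finset E} {D : Finset V} {y : V} :
    y ∈ G.cl S D ↔ ∃ x ∈ D, y ∈ G.cl S {x} := by
  constructor
  · intro h
    by_contra hne
    push Not at hne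
    have hd : Disjoint D (G.cl S {y}) := by
      rw [Finset.disjoint_left]
      intro x hx hx'
      exact hne x hx (G.mem_cl_symm hx')
    have := G.disj_cl_of_sat (G.sat_cl S {y}) hd
    exact (Finset.disjoint_left.1 this h) (G.subset_cl S {y} (Finset.mem_singleton_self y))
  · rintro ⟨x, hx, hy⟩
    exact G.cl_mono (Finset.Subset.refl _) (by rwa [Finset.singleton_subset_iff]) hy

/-- deleting a saturated set does not change a cluster disjoint from it -/
theorem cl_off {S : Finset E} {D T : Finset V} (hT : G.Sat S T) (hD : Disjoint D T) :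
    G.cl (G.off S T) D = G.cl S D := by
  apply Finset.Subset.antisymm
  · exact G.cl_mono (G.off_subset S T) (Finset.Subset.refl _)
  · refine G.cl_subset (G.subset_cl _ D) ?_
    intro e he
    by_cases hdis : Disjoint (G.inc e) T
    · exact G.sat_cl (G.off S T) D e ((G.mem_off).2 ⟨he, hdis⟩)
    · rcases hT e he with h1 | h1
      · right
        have h2 : Disjoint (G.cl S D) T := G.disj_cl_of_sat hT hD
        have h3 : G.cl (G.off S T) D ⊆ G.cl S D :=
          G.cl_mono (G.off_subset S T) (Finset.Subset.refl _)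
        exact (Finset.disjoint_of_subset_left h3
          (Finset.disjoint_of_subset_right h1 h2)).symm
      · exact absurd h1 hdis

/-! ### exploration -/

theorem cl_union_eq_iff {A : Finset E} {D T : Finset V} {S₁ S₂ : Finset E}
    (h2 : S₂ ⊆ G.off A T) :
    G.cl (S₁ ∪ S₂) D = T ↔ G.cl S₁ D = T := by
  have hdis : ∀ e ∈ S₂, Disjoint (G.inc e) T := fun e he => ((G.mem_off).1 (h2 he)).2
  constructor
  · intro h
    have hsub : G.cl S₁ D ⊆ T := by
      rw [← h]; exact G.cl_mono Finset.subset_union_left (Finset.Subset.refl _)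
    apply Finset.Subset.antisymm hsub
    conv_lhs => rw [← h]
    refine G.cl_subset (G.subset_cl S₁ D) ?_
    intro e he
    rcases Finset.mem_union.1 he with he | he
    · exact G.sat_cl S₁ D e he
    · exact Or.inr (Finset.disjoint_of_subset_right hsub (hdis e he))
  · intro h
    apply Finset.Subset.antisymm
    · refine G.cl_subset (by rw [← h]; exact G.subset_cl S₁ D) ?_
      intro e he
      rcases Finset.mem_union.1 he with he | he
      · rw [← h]; exact G.sat_cl S₁ D e he
      · exact Or.inr (hdis e he)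
    · rw [← h]; exact G.cl_mono Finset.subset_union_left (Finset.Subset.refl _)

theorem off_union_of {A : Finset E} {T : Finset V} {S₁ S₂ : Finset E}
    (h1 : S₁ ⊆ G.tch A T) (h2 : S₂ ⊆ G.off A T) : G.off (S₁ ∪ S₂) T = S₂ := by
  ext e
  rw [mem_off, Finset.mem_union]
  constructor
  · rintro ⟨h | h, hd⟩
    · exact absurd hd ((G.mem_tch).1 (h1 h)).2
    · exact h
  · intro h
    exact ⟨Or.inr h, ((G.mem_off).1 (h2 h)).2⟩

open Classical in
theorem ex_cl_eq (A : Finset E) (D T : Finset V) (Φ : Finset E → ℝ) :
    G.ex A (fun S => if G.cl S D = T then Φ (G.off S T) else 0)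
      = G.ex (G.tch A T) (fun S => if G.cl S D = T then 1 else 0) * G.ex (G.off A T) Φ := by
  conv_lhs => rw [← G.tch_union_off A T]
  rw [G.ex_union (G.disj_tch_off A T), ← G.ex_mul_right]
  refine G.ex_congr fun S₁ h1 => ?_
  have : ∀ S₂, S₂ ⊆ G.off A T →
      (if G.cl (S₁ ∪ S₂) D = T then Φ (G.off (S₁ ∪ S₂) T) else 0)
        = (if G.cl S₁ D = T then 1 else 0) * Φ S₂ := by
    intro S₂ h2
    rw [G.off_union_of h1 h2]
    by_cases h : G.cl S₁ D = T
    · rw [if_pos h, if_pos ((G.cl_union_eq_iff h2).2 h), one_mul]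
    · rw [if_neg h, if_neg (fun h' => h ((G.cl_union_eq_iff h2).1 h')), zero_mul]
  rw [G.ex_congr this, G.ex_mul_left]

/-- **spatial Markov property**: given the cluster of `D`, the configuration off it is fresh. -/
theorem resample (A : Finset E) (D : Finset V) (Φ : Finset V → Finset E → ℝ) :
    G.ex A (fun S => Φ (G.cl S D) (G.off S (G.cl S D)))
      = G.ex A (fun S => G.ex (G.off A (G.cl S D)) (Φ (G.cl S D))) := by
  classical
  have h1 : ∀ S, S ⊆ A → Φ (G.cl S D) (G.off S (G.cl S D))
      = ∑ T : Finset V, (if G.cl S D = T then Φ T (G.off S T) else 0) := by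
    intro S _
    rw [Finset.sum_ite_eq]
    simp
  have h2 : ∀ S, S ⊆ A → G.ex (G.off A (G.cl S D)) (Φ (G.cl S D))
      = ∑ T : Finset V, (if G.cl S D = T then G.ex (G.off A T) (Φ T) else 0) := by
    intro S _
    rw [Finset.sum_ite_eq]
    simp
  rw [G.ex_congr h1, G.ex_congr h2, G.ex_sum, G.ex_sum]
  refine Finset.sum_congr rfl fun T _ => ?_
  rw [G.ex_cl_eq A D T (Φ T)]
  have := G.ex_cl_eq A D T (fun _ => G.ex (G.off A T) (Φ T))
  rw [this, G.ex_const]

end HG

end Crest.Agent.R147.KN
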