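import Crest.Agent.R147.KN.Basic

/-!
# Lemma W and Lemma C* (helper843 #5028, helper844 #5748) for hypergraph percolation
-/

set_option autoImplicit false
set_option linter.unusedSectionVars false

open Finset

namespace Crest.Agent.R147.KN

namespace HG

variable {V E : Type*} [DecidableEq V] [DecidableEq E] [Fintype V] (G : HG V E)

theorem ex_mono_set {A B : Finset E} (h : A ⊆ B) {f : Finset E → ℝ}
    (hf : ∀ S S', S ⊆ S' → f S ≤ f S') : G.ex A f ≤ G.ex B f := by
  rw [← G.ex_sub_config h]
  exact G.ex_mono fun S _ => hf _ _ Finset.inter_subset_left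

theorem ex_anti_set {A B : Finset E} (h : A ⊆ B) {f : Finset E → ℝ}
    (hf : ∀ S S', S ⊆ S' → f S' ≤ f S) : G.ex B f ≤ G.ex A f := by
  rw [← G.ex_sub_config h]
  exact G.ex_mono fun S _ => hf _ _ Finset.inter_subset_left

theorem ex_ite {A : Finset E} (P : Prop) [Decidable P] (f g : Finset E → ℝ) :
    G.ex A (fun S => if P then f S else g S) = if P then G.ex A f else G.ex A g := by
  by_cases h : P <;> simp [h]

theorem mem_cl_iff_not_disj {S : Finset E} {k : V} {s : Finset V} :
    k ∈ G.cl S s ↔ ¬ Disjoint (G.cl S {k}) s := by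
  rw [mem_cl_iff_exists, Finset.not_disjoint_iff]
  constructor
  · rintro ⟨x, hx, hk⟩
    exact ⟨x, G.mem_cl_symm hk, hx⟩
  · rintro ⟨x, hk, hx⟩
    exact ⟨x, hx, G.mem_cl_symm hk⟩

theorem notMem_cl_iff_disj {S : Finset E} {k : V} {s : Finset V} :
    k ∉ G.cl S s ↔ Disjoint (G.cl S {k}) s := by
  rw [mem_cl_iff_not_disj, not_not]

/-- conditioning on the cluster of `s` -/
theorem ex_split_s (A : Finset E) (k : V) (s : Finset V) (Θ : Finset V → Finset V → ℝ) :
    G.ex A (fun S => if k ∈ G.cl S s then 0 else Θ (G.cl S s) (G.cl S {k}))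
      = G.ex A (fun S => if k ∈ G.cl S s then 0 else
          G.ex (G.off A (G.cl S s)) (fun S' => Θ (G.cl S s) (G.cl S' {k}))) := by
  have h := G.resample A s (fun T S' => if k ∈ T then 0 else Θ T (G.cl S' {k}))
  have h1 : G.ex A (fun S => if k ∈ G.cl S s then 0 else Θ (G.cl S s) (G.cl S {k}))
      = G.ex A (fun S => if k ∈ G.cl S s then 0 else
          Θ (G.cl S s) (G.cl (G.off S (G.cl S s)) {k})) := by
    refine G.ex_congr fun S _ => ?_
    by_cases hk : k ∈ G.cl S s
    · rw [if_pos hk, if_pos hk]
    · rw [if_neg hk, if_neg hk, G.cl_off (G.sat_cl S s) (by simpa using hk)]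
  rw [h1, h]
  refine G.ex_congr fun S _ => ?_
  rw [G.ex_ite, G.ex_const]

/-- conditioning on the cluster of `k` -/
theorem ex_split_k (A : Finset E) (k : V) (s : Finset V) (Θ : Finset V → Finset V → ℝ) :
    G.ex A (fun S => if k ∈ G.cl S s then 0 else Θ (G.cl S s) (G.cl S {k}))
      = G.ex A (fun S => if k ∈ G.cl S s then 0 else
          G.ex (G.off A (G.cl S {k})) (fun S' => Θ (G.cl S' s) (G.cl S {k}))) := by
  have h := G.resample A {k} (fun R S' => if Disjoint R s then Θ (G.cl S' s) R else 0)
  have h1 : G.ex A (fun S => if k ∈ G.cl S s then 0 else Θ (G.cl S s) (G.cl S {k}))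
      = G.ex A (fun S => if Disjoint (G.cl S {k}) s then
          Θ (G.cl (G.off S (G.cl S {k})) s) (G.cl S {k}) else 0) := by
    refine G.ex_congr fun S _ => ?_
    by_cases hk : k ∈ G.cl S s
    · rw [if_pos hk, if_neg ((G.mem_cl_iff_not_disj).1 hk)]
    · have hd := (G.notMem_cl_iff_disj).1 hk
      rw [if_neg hk, if_pos hd, G.cl_off (G.sat_cl S {k}) hd.symm]
  rw [h1, h]
  refine G.ex_congr fun S _ => ?_
  rw [G.ex_ite, G.ex_const]
  by_cases hk : k ∈ G.cl S s
  · rw [if_pos hk, if_neg ((G.mem_cl_iff_not_disj).1 hk)]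
  · rw [if_neg hk, if_pos ((G.notMem_cl_iff_disj).1 hk)]

/-- `(P f)(T) = E^{Ω ∖ T} f(C_k)` -/
noncomputable def Pop (Ω : Finset E) (k : V) (f : Finset V → ℝ) (T : Finset V) : ℝ :=
  G.ex (G.off Ω T) (fun S => f (G.cl S {k}))

/-- `(Q g)(R) = E^{Ω ∖ R} g(C_s)` -/
noncomputable def Qop (Ω : Finset E) (s : Finset V) (g : Finset V → ℝ) (R : Finset V) : ℝ :=
  G.ex (G.off Ω R) (fun S => g (G.cl S s))

theorem Pop_anti (Ω : Finset E) (k : V) {f : Finset V → ℝ} (hf : Monotone f) :
    Antitone (G.Pop Ω k f) := by
  intro T T' h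
  exact G.ex_mono_set (G.off_anti Ω h) fun S S' hS => hf (G.cl_mono hS (Finset.Subset.refl _))

theorem Qop_mono (Ω : Finset E) (s : Finset V) {g : Finset V → ℝ} (hg : Antitone g) :
    Monotone (G.Qop Ω s g) := by
  intro R R' h
  exact G.ex_anti_set (G.off_anti Ω h) fun S S' hS => hg (G.cl_mono hS (Finset.Subset.refl _))

/-- exploration from `X` in a sub-percolation, then fresh outside, is dominated -/
theorem sub_perc {A Ω : Finset E} (h : A ⊆ Ω) (k : V) (X : Finset V) {α : Finset V → ℝ}
    (hα : Monotone α) :
    G.ex A (fun S => if k ∈ G.cl S X then α (G.cl S {k}) else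
        G.ex (G.off Ω (G.cl S X)) (fun S' => α (G.cl S' {k})))
      ≤ G.ex Ω (fun S => α (G.cl S {k})) := by
  set B : Finset E := Ω \ A with hB
  have hΩ : Ω = A ∪ B := by rw [hB, Finset.union_sdiff_of_subset h]
  have hd : Disjoint A B := Finset.disjoint_sdiff
  have hR : G.ex Ω (fun S => α (G.cl S {k}))
      = G.ex A (fun S => G.ex B (fun S' => α (G.cl (S ∪ S') {k}))) := by
    conv_lhs => rw [hΩ]
    rw [G.ex_union hd]
  rw [hR]
  -- the good decomposition
  have h1 : G.ex A (fun S => if k ∈ G.cl S X then α (G.cl S {k}) else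
        G.ex (G.off Ω (G.cl S X)) (fun S' => α (G.cl S' {k})))
      = G.ex A (fun S => if k ∈ G.cl S X then α (G.cl S {k}) else
        G.ex B (fun S' => α (G.cl (G.off S (G.cl S X) ∪ G.off S' (G.cl S X)) {k}))) := by
    have e1 : ∀ S, (if k ∈ G.cl S X then α (G.cl S {k}) else
        G.ex (G.off Ω (G.cl S X)) (fun S' => α (G.cl S' {k})))
        = (if k ∈ G.cl S X then α (G.cl S {k}) else 0)
          + (if k ∈ G.cl S X then 0 else
              G.ex (G.off Ω (G.cl S X)) (fun S' => α (G.cl S' {k}))) := by
      intro S; split_ifs <;> simp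
    have e2 : ∀ S, (if k ∈ G.cl S X then α (G.cl S {k}) else
        G.ex B (fun S' => α (G.cl (G.off S (G.cl S X) ∪ G.off S' (G.cl S X)) {k})))
        = (if k ∈ G.cl S X then α (G.cl S {k}) else 0)
          + (if k ∈ G.cl S X then 0 else
            G.ex B (fun S' => α (G.cl (G.off S (G.cl S X) ∪ G.off S' (G.cl S X)) {k}))) := by
      intro S; split_ifs <;> simp
    rw [G.ex_congr fun S _ => e1 S, G.ex_congr fun S _ => e2 S, G.ex_add, G.ex_add]
    congr 1
    have hres := G.resample A X (fun D S₂ => if k ∈ D then 0 else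
      G.ex B (fun S' => α (G.cl (S₂ ∪ G.off S' D) {k})))
    rw [hres]
    refine G.ex_congr fun S _ => ?_
    rw [G.ex_ite, G.ex_const]
    congr 1
    set D := G.cl S X
    have hΩD : G.off Ω D = G.off A D ∪ G.off B D := by
      conv_lhs => rw [hΩ]
      rw [G.off_union_config]
    have hdD : Disjoint (G.off A D) (G.off B D) :=
      Finset.disjoint_of_subset_left (G.off_subset A D)
        (Finset.disjoint_of_subset_right (G.off_subset B D) hd)
    rw [hΩD, G.ex_union hdD]
    refine G.ex_congr fun S₂ _ => ?_
    rw [← G.ex_sub_config (G.off_subset B D) (fun S' => α (G.cl (S₂ ∪ S') {k}))]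
    refine G.ex_congr fun S' hS' => ?_
    have : S' ∩ G.off B D = G.off S' D := by
      ext e
      simp only [Finset.mem_inter, mem_off]
      constructor
      · rintro ⟨a, b, c⟩; exact ⟨a, c⟩
      · rintro ⟨a, b⟩; exact ⟨a, hS' a, b⟩
    rw [this]
  rw [h1]
  refine G.ex_mono fun S _ => ?_
  by_cases hk : k ∈ G.cl S X
  · rw [if_pos hk]
    exact G.le_ex_of_le fun S' _ => hα (G.cl_mono Finset.subset_union_left (Finset.Subset.refl _))
  · rw [if_neg hk]
    refine G.ex_mono fun S' _ => hα (G.cl_mono ?_ (Finset.Subset.refl _))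
    exact Finset.union_subset_union (G.off_subset _ _) (G.off_subset _ _)

/-- the function `(β(C_s) - α(C_k)) 1{k ≁ s}`, `β = P α` -/
noncomputable def phi (Ω : Finset E) (k : V) (s : Finset V) (α : Finset V → ℝ)
    (S : Finset E) : ℝ :=
  if k ∈ G.cl S s then 0 else G.Pop Ω k α (G.cl S s) - α (G.cl S {k})

/-- `W` is monotone: one edge -/
theorem W_insert {A Ω : Finset E} (hA : A ⊆ Ω) {e : E} (_heΩ : e ∈ Ω) (k : V)
    (s : Finset V) {α : Finset V → ℝ} (hα : Monotone α) :
    G.ex A (fun S => G.phi Ω k s α (insert e S)) ≤ G.ex A (G.phi Ω k s α) := by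
  -- the difference as a function of the cluster of `s` and the configuration off it
  set Ψ : Finset V → Finset E → ℝ := fun T S₂ =>
    if k ∈ T then 0 else
    if Disjoint (G.inc e) T then α (G.cl (insert e S₂) {k}) - α (G.cl S₂ {k}) else
    if G.inc e ⊆ T then 0 else
      G.Pop Ω k α T - (if k ∈ G.cl S₂ (G.inc e \ T) then α (G.cl S₂ {k}) else
        G.Pop Ω k α (T ∪ G.cl S₂ (G.inc e \ T))) with hΨ
  have key : ∀ S, S ⊆ A → G.phi Ω k s α S - G.phi Ω k s α (insert e S)
      = Ψ (G.cl S s) (G.off S (G.cl S s)) := by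
    intro S _
    set T := G.cl S s with hT
    have hsatT : G.Sat S T := G.sat_cl S s
    have hTsub : T ⊆ G.cl (insert e S) s :=
      G.cl_mono (Finset.subset_insert _ _) (Finset.Subset.refl _)
    simp only [hΨ]
    by_cases hk : k ∈ T
    · rw [if_pos hk]
      unfold phi
      rw [if_pos hk, if_pos (hTsub hk), sub_zero]
    · rw [if_neg hk]
      have hkd : Disjoint ({k} : Finset V) T := by simpa using hk
      have hCk : G.cl (G.off S T) {k} = G.cl S {k} := G.cl_off hsatT hkd
      by_cases h1 : Disjoint (G.inc e) T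
      · -- e outside T
        rw [if_pos h1]
        have hsat' : G.Sat (insert e S) T := by
          intro f hf
          rcases Finset.mem_insert.1 hf with rfl | hf
          · exact Or.inr h1
          · exact hsatT f hf
        have hcl : G.cl (insert e S) s = T := by
          apply Finset.Subset.antisymm
          · exact G.cl_subset (G.subset_cl S s) hsat'
          · exact hTsub
        have hoff : G.off (insert e S) T = insert e (G.off S T) := by
          ext f
          simp only [mem_off, Finset.mem_insert]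
          constructor
          · rintro ⟨rfl | a, b⟩
            · exact Or.inl rfl
            · exact Or.inr ⟨a, b⟩
          · rintro (rfl | ⟨a, b⟩)
            · exact ⟨Or.inl rfl, h1⟩
            · exact ⟨Or.inr a, b⟩
        have hCk' : G.cl (insert e (G.off S T)) {k} = G.cl (insert e S) {k} := by
          rw [← hoff]; exact G.cl_off hsat' hkd
        unfold phi
        rw [← hT, if_neg hk, hcl, if_neg hk, hCk, hCk']
        ring
      · rw [if_neg h1]
        by_cases h2 : G.inc e ⊆ T
        · rw [if_pos h2]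
          have hsat' : G.Sat (insert e S) T := by
            intro f hf
            rcases Finset.mem_insert.1 hf with rfl | hf
            · exact Or.inl h2
            · exact hsatT f hf
          have hcl : G.cl (insert e S) s = T := by
            apply Finset.Subset.antisymm
            · exact G.cl_subset (G.subset_cl S s) hsat'
            · exact hTsub
          have hoff : G.off (insert e S) T = G.off S T := by
            ext f
            simp only [mem_off, Finset.mem_insert]
            constructor
            · rintro ⟨rfl | a, b⟩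
              · exact absurd b h1
              · exact ⟨a, b⟩
            · rintro ⟨a, b⟩
              exact ⟨Or.inr a, b⟩
          have hCk' : G.cl (insert e S) {k} = G.cl S {k} := by
            rw [← G.cl_off hsat' hkd, hoff, hCk]
          unfold phi
          rw [← hT, if_neg hk, hcl, if_neg hk, hCk', sub_self]
        · rw [if_neg h2]
          set X := G.inc e \ T with hX
          have hXd : Disjoint X T := Finset.sdiff_disjoint
          set D := G.cl (G.off S T) X with hD
          have hDS : D = G.cl S X := G.cl_off hsatT hXd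
          have hsatD : G.Sat S D := by rw [hDS]; exact G.sat_cl S X
          have hDT : Disjoint D T := by rw [hDS]; exact G.disj_cl_of_sat hsatT hXd
          have hXD : X ⊆ D := G.subset_cl _ X
          have hsub : G.inc e ⊆ T ∪ D := by
            intro v hv
            by_cases hvT : v ∈ T
            · exact Finset.mem_union_left _ hvT
            · exact Finset.mem_union_right _ (hXD (Finset.mem_sdiff.2 ⟨hv, hvT⟩))
          have hsatTD : G.Sat (insert e S) (T ∪ D) := by
            intro f hf
            rcases Finset.mem_insert.1 hf with rfl | hf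
            · exact Or.inl hsub
            · exact (hsatT.union hsatD) f hf
          have hcl : G.cl (insert e S) s = T ∪ D := by
            apply Finset.Subset.antisymm
            · exact G.cl_subset ((G.subset_cl S s).trans Finset.subset_union_left) hsatTD
            · apply Finset.union_subset hTsub
              rw [hDS]
              refine G.cl_subset ?_ ((G.sat_cl (insert e S) s).mono (Finset.subset_insert _ _))
              rcases G.sat_cl (insert e S) s e (Finset.mem_insert_self _ _) with h3 | h3
              · exact (Finset.sdiff_subset).trans h3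
              · exact absurd (Finset.disjoint_of_subset_right hTsub h3) h1
          unfold phi
          rw [← hT, if_neg hk, hcl, hCk]
          by_cases hkD : k ∈ D
          · rw [if_pos (Finset.mem_union_right _ hkD), if_pos hkD]
            ring
          · have hkTD : k ∉ T ∪ D := by
              rw [Finset.mem_union, not_or]; exact ⟨hk, hkD⟩
            rw [if_neg hkTD, if_neg hkD]
            have hoff : G.off (insert e S) (T ∪ D) = G.off S (T ∪ D) := by
              ext f
              simp only [mem_off, Finset.mem_insert]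
              constructor
              · rintro ⟨rfl | a, b⟩
                · exact absurd (Finset.disjoint_of_subset_right Finset.subset_union_left b) h1
                · exact ⟨a, b⟩
              · rintro ⟨a, b⟩
                exact ⟨Or.inr a, b⟩
            have hCk' : G.cl (insert e S) {k} = G.cl S {k} := by
              rw [← G.cl_off hsatTD (by simpa using hkTD), hoff,
                G.cl_off (hsatT.union hsatD) (by simpa using hkTD)]
            rw [hCk']
            ring
  have hdiff : 0 ≤ G.ex A (fun S => G.phi Ω k s α S - G.phi Ω k s α (insert e S)) := by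
    rw [G.ex_congr key, G.resample A s Ψ]
    refine G.ex_nonneg fun S _ => ?_
    set T := G.cl S s
    simp only [hΨ]
    by_cases hk : k ∈ T
    · simp only [if_pos hk]
      rw [G.ex_const]
    · simp only [if_neg hk]
      by_cases h1 : Disjoint (G.inc e) T
      · simp only [if_pos h1]
        refine G.ex_nonneg fun S₂ _ => ?_
        have := hα (G.cl_mono (D := {k}) (D' := {k}) (Finset.subset_insert e S₂)
          (Finset.Subset.refl _))
        linarith
      · simp only [if_neg h1]
        by_cases h2 : G.inc e ⊆ T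
        · simp only [if_pos h2]
          rw [G.ex_const]
        · simp only [if_neg h2]
          rw [G.ex_sub, G.ex_const]
          have := G.sub_perc (G.off_mono hA T) k (G.inc e \ T) hα
          have e1 : ∀ S₂, (if k ∈ G.cl S₂ (G.inc e \ T) then α (G.cl S₂ {k}) else
              G.Pop Ω k α (T ∪ G.cl S₂ (G.inc e \ T)))
              = (if k ∈ G.cl S₂ (G.inc e \ T) then α (G.cl S₂ {k}) else
              G.ex (G.off (G.off Ω T) (G.cl S₂ (G.inc e \ T)))
                (fun S' => α (G.cl S' {k}))) := by
            intro S₂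
            unfold Pop
            rw [G.off_off]
          rw [G.ex_congr fun S₂ _ => e1 S₂]
          unfold Pop
          linarith
  rw [G.ex_sub] at hdiff
  linarith

/-- **Lemma W (monotonicity)** -/
theorem W_anti {A B Ω : Finset E} (hAB : A ⊆ B) (hB : B ⊆ Ω) (k : V)
    (s : Finset V) {α : Finset V → ℝ} (hα : Monotone α) :
    G.ex B (G.phi Ω k s α) ≤ G.ex A (G.phi Ω k s α) := by
  have main : ∀ C : Finset E, C ⊆ Ω →
      G.ex (A ∪ C) (G.phi Ω k s α) ≤ G.ex A (G.phi Ω k s α) := by
    intro C
    induction C using Finset.induction_on with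
    | empty => intro _; simp
    | insert e C he ih =>
      intro hC
      have hCΩ : C ⊆ Ω := (Finset.subset_insert _ _).trans hC
      have heΩ : e ∈ Ω := hC (Finset.mem_insert_self _ _)
      have hACΩ : A ∪ C ⊆ Ω := Finset.union_subset (hAB.trans hB) hCΩ
      rw [Finset.union_insert]
      by_cases heA : e ∈ A ∪ C
      · rw [Finset.insert_eq_of_mem heA]; exact ih hCΩ
      · refine le_trans ?_ (ih hCΩ)
        rw [G.ex_insert heA]
        have h1 := G.W_insert hACΩ heΩ k s hα
        have h2 := G.p_nonneg e
        have h3 := G.p_lt e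
        nlinarith
  have := main B hB
  rwa [Finset.union_eq_right.2 hAB] at this

/-- `W(Ω) = 0` -/
theorem W_full (Ω : Finset E) (k : V) (s : Finset V) (α : Finset V → ℝ) :
    G.ex Ω (G.phi Ω k s α) = 0 := by
  unfold phi
  rw [G.ex_split_s Ω k s (fun T R => G.Pop Ω k α T - α R)]
  refine (G.ex_congr (g := fun _ => 0) fun S _ => ?_).trans (G.ex_const Ω 0)
  by_cases hk : k ∈ G.cl S s
  · rw [if_pos hk]
  · rw [if_neg hk, G.ex_sub, G.ex_const]
    unfold Pop
    ring

/-- `W ≥ 0` -/
theorem W_nonneg {A Ω : Finset E} (hA : A ⊆ Ω) (k : V) (s : Finset V) {α : Finset V → ℝ}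
    (hα : Monotone α) : 0 ≤ G.ex A (G.phi Ω k s α) := by
  have := G.W_anti hA (Finset.Subset.refl Ω) k s hα
  rwa [G.W_full] at this

/-- `w(C) = W(Ω ∖ C)` -/
noncomputable def w (Ω : Finset E) (k : V) (s : Finset V) (α : Finset V → ℝ) (C : Finset V) : ℝ :=
  G.ex (G.off Ω C) (G.phi Ω k s α)

theorem w_nonneg (Ω : Finset E) (k : V) (s : Finset V) {α : Finset V → ℝ}
    (hα : Monotone α) (C : Finset V) : 0 ≤ G.w Ω k s α C :=
  G.W_nonneg (G.off_subset Ω C) k s hα

theorem w_mono (Ω : Finset E) (k : V) (s : Finset V) {α : Finset V → ℝ}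
    (hα : Monotone α) : Monotone (G.w Ω k s α) := by
  intro C C' h
  exact G.W_anti (G.off_anti Ω h) (G.off_subset Ω C) k s hα

theorem w_empty (Ω : Finset E) (k : V) (s : Finset V) (α : Finset V → ℝ) :
    G.w Ω k s α ∅ = 0 := by
  unfold w
  rw [off_empty, W_full]

/-- expectation of `w` after exploring the cluster of `y` -/
theorem ex_w_eq (Ω : Finset E) (k : V) (s : Finset V) (α : Finset V → ℝ) (C : Finset V) (y : V) :
    G.ex (G.off Ω C) (fun S => if Disjoint (G.cl S {y}) (insert k s) then
        G.w Ω k s α (C ∪ G.cl S {y}) else 0)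
      = G.ex (G.off Ω C) (fun S => if Disjoint (G.cl S {y}) (insert k s) then
        G.phi Ω k s α S else 0) := by
  have h := G.resample (G.off Ω C) {y} (fun D S' => if Disjoint D (insert k s) then
    G.phi Ω k s α S' else 0)
  have h1 : G.ex (G.off Ω C) (fun S => if Disjoint (G.cl S {y}) (insert k s) then
        G.w Ω k s α (C ∪ G.cl S {y}) else 0)
      = G.ex (G.off Ω C) (fun S => G.ex (G.off (G.off Ω C) (G.cl S {y}))
        (fun S' => if Disjoint (G.cl S {y}) (insert k s) then
        G.phi Ω k s α S' else 0)) := by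
    refine G.ex_congr fun S _ => ?_
    rw [G.ex_ite, G.ex_const]
    unfold w
    rw [G.off_off]
  rw [h1, ← h]
  refine G.ex_congr fun S _ => ?_
  by_cases hd : Disjoint (G.cl S {y}) (insert k s)
  · rw [if_pos hd, if_pos hd]
    rw [Finset.disjoint_insert_right] at hd
    have hsat := G.sat_cl S {y}
    unfold phi
    rw [G.cl_off hsat hd.2.symm, G.cl_off hsat (by simpa using hd.1)]
  · rw [if_neg hd, if_neg hd]

/-- **increment inequality**: any already explored set `C` -/
theorem incr_le (Ω : Finset E) (k : V) (s : Finset V) {α f₀ : Finset V → ℝ}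
    (hα : Monotone α) (hsol : ∀ R, α R - G.Qop Ω s (G.Pop Ω k α) R = f₀ R)
    (C : Finset V) (y : V) :
    G.ex (G.off Ω C) (fun S => if Disjoint (G.cl S {y}) (insert k s) then
        G.w Ω k s α (C ∪ G.cl S {y}) else 0)
      ≤ G.w Ω k s α C + G.ex (G.off Ω C) (fun S =>
          if k ∈ G.cl S {y} ∧ Disjoint (G.cl S {y}) s then f₀ (G.cl S {y}) else 0) := by
  rw [G.ex_w_eq]
  set A := G.off Ω C with hA
  have hAΩ : A ⊆ Ω := G.off_subset Ω C
  -- pointwise splitting
  have hpt : ∀ S, (if Disjoint (G.cl S {y}) (insert k s) then G.phi Ω k s α S else 0)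
      = (if k ∈ G.cl S s then 0 else (fun T R => if y ∈ T then 0 else
          G.Pop Ω k α T - α R) (G.cl S s) (G.cl S {k}))
        + (if k ∈ G.cl S s then 0 else (fun T R => if y ∈ R then
          α R - G.Pop Ω k α T else 0) (G.cl S s) (G.cl S {k})) := by
    intro S
    simp only [Finset.disjoint_insert_right]
    by_cases hk : k ∈ G.cl S s
    · rw [if_pos hk, if_pos hk]
      unfold phi
      rw [if_pos hk]
      simp
    · rw [if_neg hk, if_neg hk]
      unfold phi
      rw [if_neg hk]
      by_cases hys : y ∈ G.cl S s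
      · have h1 : ¬ Disjoint (G.cl S {y}) s := (G.mem_cl_iff_not_disj).1 hys
        have h2 : y ∉ G.cl S {k} := by
          intro h
          have h3 : G.cl S {y} = G.cl S {k} := G.cl_singleton_eq h
          rw [h3] at h1
          exact hk ((G.mem_cl_iff_not_disj).2 h1)
        rw [if_neg (fun h => h1 h.2), if_pos hys, if_neg h2]
        simp
      · have h1 : Disjoint (G.cl S {y}) s := (G.notMem_cl_iff_disj).1 hys
        by_cases hyk : y ∈ G.cl S {k}
        · have h3 : k ∈ G.cl S {y} := G.mem_cl_symm hyk
          rw [if_neg (fun h => h.1 h3), if_neg hys, if_pos hyk]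
          ring
        · have h3 : k ∉ G.cl S {y} := fun h => hyk (G.mem_cl_symm h)
          rw [if_pos ⟨h3, h1⟩, if_neg hys, if_neg hyk]
          ring
  rw [G.ex_congr fun S _ => hpt S, G.ex_add]
  apply add_le_add
  · -- first term
    rw [G.ex_split_s A k s (fun T R => if y ∈ T then 0 else G.Pop Ω k α T - α R)]
    unfold w phi
    rw [← hA, G.ex_split_s A k s (fun T R => G.Pop Ω k α T - α R)]
    refine G.ex_mono fun S _ => ?_
    by_cases hk : k ∈ G.cl S s
    · rw [if_pos hk, if_pos hk]
    · rw [if_neg hk, if_neg hk]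
      by_cases hy : y ∈ G.cl S s
      · simp only [if_pos hy]
        rw [G.ex_const, G.ex_sub, G.ex_const]
        have : G.ex (G.off A (G.cl S s)) (fun S' => α (G.cl S' {k}))
            ≤ G.Pop Ω k α (G.cl S s) :=
          G.ex_mono_set (G.off_mono hAΩ _)
            fun S S' hS => hα (G.cl_mono hS (Finset.Subset.refl _))
        linarith
      · simp only [if_neg hy]
        exact le_refl _
  · rw [G.ex_split_k A k s (fun T R => if y ∈ R then α R - G.Pop Ω k α T else 0)]
    refine G.ex_mono fun S _ => ?_
    by_cases hk : k ∈ G.cl S s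
    · rw [if_pos hk]
      have h1 : ¬ (k ∈ G.cl S {y} ∧ Disjoint (G.cl S {y}) s) := by
        rintro ⟨h1, h2⟩
        rw [← G.cl_singleton_eq h1, ← G.notMem_cl_iff_disj] at h2
        exact h2 hk
      rw [if_neg h1]
    · rw [if_neg hk]
      have hd : Disjoint (G.cl S {k}) s := (G.notMem_cl_iff_disj).1 hk
      by_cases hy : y ∈ G.cl S {k}
      · have h3 : G.cl S {y} = G.cl S {k} := G.cl_singleton_eq hy
        have h4 : k ∈ G.cl S {y} := G.mem_cl_symm hy
        simp only [if_pos hy]
        rw [if_pos ⟨h4, by rw [h3]; exact hd⟩, h3, G.ex_sub, G.ex_const, ← hsol]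
        have : G.Qop Ω s (G.Pop Ω k α) (G.cl S {k})
            ≤ G.ex (G.off A (G.cl S {k})) (fun S' => G.Pop Ω k α (G.cl S' s)) :=
          G.ex_anti_set (G.off_mono hAΩ _)
            fun S S' hS => G.Pop_anti Ω k hα (G.cl_mono hS (Finset.Subset.refl _))
        linarith
      · have h4 : k ∉ G.cl S {y} := fun h => hy (G.mem_cl_symm h)
        simp only [if_neg hy]
        rw [if_neg (fun h => h4 h.1), G.ex_const]

/-- **Lemma C**: with nothing explored the increment inequality is an equality -/
theorem incr_eq (Ω : Finset E) (k : V) (s : Finset V) {α f₀ : Finset V → ℝ}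
    (hsol : ∀ R, α R - G.Qop Ω s (G.Pop Ω k α) R = f₀ R) (y : V) :
    G.ex Ω (fun S => if Disjoint (G.cl S {y}) (insert k s) then
        G.w Ω k s α (G.cl S {y}) else 0)
      = G.ex Ω (fun S =>
          if k ∈ G.cl S {y} ∧ Disjoint (G.cl S {y}) s then f₀ (G.cl S {y}) else 0) := by
  have h0 := G.ex_w_eq Ω k s α ∅ y
  simp only [off_empty, Finset.empty_union] at h0
  rw [h0]
  have hpt : ∀ S, (if Disjoint (G.cl S {y}) (insert k s) then G.phi Ω k s α S else 0)
      = (if k ∈ G.cl S s then 0 else (fun T R => if y ∈ T then 0 else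
          G.Pop Ω k α T - α R) (G.cl S s) (G.cl S {k}))
        + (if k ∈ G.cl S s then 0 else (fun T R => if y ∈ R then
          α R - G.Pop Ω k α T else 0) (G.cl S s) (G.cl S {k})) := by
    intro S
    simp only [Finset.disjoint_insert_right]
    by_cases hk : k ∈ G.cl S s
    · rw [if_pos hk, if_pos hk]
      unfold phi
      rw [if_pos hk]
      simp
    · rw [if_neg hk, if_neg hk]
      unfold phi
      rw [if_neg hk]
      by_cases hys : y ∈ G.cl S s
      · have h1 : ¬ Disjoint (G.cl S {y}) s := (G.mem_cl_iff_not_disj).1 hys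
        have h2 : y ∉ G.cl S {k} := by
          intro h
          have h3 : G.cl S {y} = G.cl S {k} := G.cl_singleton_eq h
          rw [h3] at h1
          exact hk ((G.mem_cl_iff_not_disj).2 h1)
        rw [if_neg (fun h => h1 h.2), if_pos hys, if_neg h2]
        simp
      · have h1 : Disjoint (G.cl S {y}) s := (G.notMem_cl_iff_disj).1 hys
        by_cases hyk : y ∈ G.cl S {k}
        · have h3 : k ∈ G.cl S {y} := G.mem_cl_symm hyk
          rw [if_neg (fun h => h.1 h3), if_neg hys, if_pos hyk]
          ring
        · have h3 : k ∉ G.cl S {y} := fun h => hyk (G.mem_cl_symm h)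
          rw [if_pos ⟨h3, h1⟩, if_neg hys, if_neg hyk]
          ring
  rw [G.ex_congr fun S _ => hpt S, G.ex_add]
  rw [G.ex_split_s Ω k s (fun T R => if y ∈ T then 0 else G.Pop Ω k α T - α R),
    G.ex_split_k Ω k s (fun T R => if y ∈ R then α R - G.Pop Ω k α T else 0)]
  have h1 : G.ex Ω (fun S => if k ∈ G.cl S s then 0 else
      G.ex (G.off Ω (G.cl S s)) (fun S' => (fun T R => if y ∈ T then 0 else
          G.Pop Ω k α T - α R) (G.cl S s) (G.cl S' {k}))) = 0 := by
    refine (G.ex_congr (g := fun _ => 0) fun S _ => ?_).trans (G.ex_const Ω 0)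
    by_cases hk : k ∈ G.cl S s
    · rw [if_pos hk]
    · rw [if_neg hk]
      by_cases hy : y ∈ G.cl S s
      · simp only [if_pos hy]
        rw [G.ex_const]
      · simp only [if_neg hy]
        rw [G.ex_sub, G.ex_const]
        unfold Pop
        ring
  rw [h1, zero_add]
  refine G.ex_congr fun S _ => ?_
  by_cases hk : k ∈ G.cl S s
  · rw [if_pos hk]
    have h1 : ¬ (k ∈ G.cl S {y} ∧ Disjoint (G.cl S {y}) s) := by
      rintro ⟨h1, h2⟩
      rw [← G.cl_singleton_eq h1, ← G.notMem_cl_iff_disj] at h2
      exact h2 hk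
    rw [if_neg h1]
  · rw [if_neg hk]
    have hd : Disjoint (G.cl S {k}) s := (G.notMem_cl_iff_disj).1 hk
    by_cases hy : y ∈ G.cl S {k}
    · have h3 : G.cl S {y} = G.cl S {k} := G.cl_singleton_eq hy
      have h4 : k ∈ G.cl S {y} := G.mem_cl_symm hy
      simp only [if_pos hy]
      rw [if_pos ⟨h4, by rw [h3]; exact hd⟩, h3, G.ex_sub, G.ex_const, ← hsol]
      rfl
    · have h4 : k ∉ G.cl S {y} := fun h => hy (G.mem_cl_symm h)
      simp only [if_neg hy]
      rw [if_neg (fun h => h4 h.1), G.ex_const]

end HG

end Crest.Agent.R147.KN
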