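import Crest.Agent.R147.KN.TStar

/-!
# Adaptive Kozma–Nitzan inequality as a superharmonic potential, and the product inequality PKN
-/

set_option autoImplicit false
set_option linter.unusedSectionVars false

open Finset Filter Topology

namespace Crest.Agent.R147.KN

namespace HG

variable {V E : Type*} [DecidableEq V] [DecidableEq E] [Fintype V] (G : HG V E)

theorem run_le_one {Ω : Finset E} {Z : Finset V} {q : ℕ → Finset V → Option V}
    {Φ₀ : Finset V → ℝ} {Φ₁ : Finset V → Finset V → ℝ} (h0 : ∀ C, Φ₀ C ≤ 1)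
    (h1 : ∀ C D, Φ₁ C D ≤ 1) (n : ℕ) (C : Finset V) : G.run Ω Z q Φ₀ Φ₁ n C ≤ 1 := by
  induction n generalizing C with
  | zero => exact h0 C
  | succ n ih =>
    simp only [run]
    cases q n C with
    | none => exact h0 C
    | some x =>
      refine G.ex_le_of_le fun S _ => ?_
      split_ifs
      · exact ih _
      · exact h1 _ _

/-- **adaptive Kozma–Nitzan**: an adversary reveals clusters one by one, he wins if a revealed
cluster meets `B` before `b` is revealed (and is not revealed with it). -/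
theorem adaptive_KN (Ω : Finset E) (B : Finset V) (b : V) {ε : ℝ} (hε0 : 0 ≤ ε)
    (hε : ∀ y ∈ B, G.ex Ω (fun S => if b ∈ G.cl S {y} then 0 else 1) ≤ ε)
    (q : ℕ → Finset V → Option V) (n : ℕ) :
    G.run Ω B q (fun _ => 0) (fun C D => if b ∈ C ∪ D then 0 else 1) n ∅ ≤ ε := by
  obtain ⟨ℓ, hℓ0, hℓu, hℓ1⟩ := G.Tstar Ω B q n B ∅ (Finset.disjoint_empty_right _)
    (Finset.union_empty B).symm
  have humono : Monotone (fun R : Finset V => if b ∈ R then (1 : ℝ) else 0) := by
    intro R R' h
    simp only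
    by_cases h1 : b ∈ R
    · rw [if_pos h1, if_pos (h h1)]
    · rw [if_neg h1]; split_ifs <;> norm_num
  have h1 := hℓu _ humono
  have h2 := G.run_sub (Ω := Ω) (Z := B) (q := q) (Φ₀ := fun _ => 0)
        (Φ₁ := fun _ D => if Disjoint D ∅ then 1 else 0) (Φ₀' := fun _ => 0)
        (Φ₁' := fun C D => if Disjoint D ∅ then (if b ∈ C ∪ D then (1 : ℝ) else 0) else 0) 1 n ∅
  have h3 : G.run Ω B q (fun _ => (0 : ℝ) - 1 * 0)
        (fun C D => (if Disjoint D ∅ then 1 else 0)
          - 1 * (if Disjoint D ∅ then (if b ∈ C ∪ D then (1 : ℝ) else 0) else 0)) n ∅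
      = G.run Ω B q (fun _ => 0) (fun C D => if b ∈ C ∪ D then 0 else 1) n ∅ := by
    refine G.run_congr (fun _ _ => by ring) (fun C D _ _ => ?_) n ∅
      (Finset.disjoint_empty_left _)
    rw [if_pos (Finset.disjoint_empty_right _), if_pos (Finset.disjoint_empty_right _)]
    split_ifs <;> ring
  have h4 : G.run Ω B q (fun _ => 0) (fun _ D => if Disjoint D ∅ then 1 else 0) n ∅ ≤ 1 :=
    G.run_le_one (fun _ => zero_le_one) (fun _ D => by split_ifs <;> norm_num) n ∅
  have h5 : ∀ i, G.cE Ω ∅ i (fun _ => 1) = 1 := by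
    intro i
    unfold cE
    simp only [Finset.disjoint_empty_right, if_true]
    rw [G.ex_const]
  have h6 : ∀ i ∈ B, 1 - ε ≤ G.cE Ω ∅ i (fun R => if b ∈ R then (1 : ℝ) else 0) := by
    intro i hi
    have h7 := hε i hi
    have h8 : G.cE Ω ∅ i (fun R => if b ∈ R then (1 : ℝ) else 0)
        = 1 - G.ex Ω (fun S => if b ∈ G.cl S {i} then (0 : ℝ) else 1) := by
      have h11 := G.ex_sub Ω (fun _ => (1 : ℝ)) (fun S => if b ∈ G.cl S {i} then (0 : ℝ) else 1)
      rw [G.ex_const] at h11
      rw [← h11]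
      unfold cE
      refine G.ex_congr fun S _ => ?_
      simp only [Finset.disjoint_empty_right, if_true]
      split_ifs <;> ring
    linarith
  have h9 : (1 - ε) * ∑ i ∈ B, ℓ i
      ≤ ∑ i ∈ B, ℓ i * G.cE Ω ∅ i (fun R => if b ∈ R then (1 : ℝ) else 0) := by
    rw [Finset.mul_sum]
    refine Finset.sum_le_sum fun i hi => ?_
    have := mul_le_mul_of_nonneg_left (h6 i hi) (hℓ0 i)
    linarith
  have h10 : ∑ i ∈ B, ℓ i * G.cE Ω ∅ i (fun _ => 1) = ∑ i ∈ B, ℓ i := by
    refine Finset.sum_congr rfl fun i _ => ?_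
    rw [h5, mul_one]
  rw [h10] at hℓ1
  rw [← hℓ1] at h4 h2
  rw [h3] at h2
  rw [h2]
  nlinarith

/-- dynamic programming value of the game -/
noncomputable def val (Ω : Finset E) (B : Finset V) (b : V) : ℕ → Finset V → ℝ
  | 0, _ => 0
  | n + 1, C => Finset.univ.sup' ⟨(none : Option V), Finset.mem_univ _⟩ (fun o =>
      match o with
      | none => 0
      | some x => G.ex (G.off Ω C) (fun S =>
          if Disjoint (G.cl S {x}) B then val Ω B b n (C ∪ G.cl S {x})
          else if b ∈ C ∪ G.cl S {x} then 0 else 1))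

theorem val_succ_ge (Ω : Finset E) (B : Finset V) (b : V) (n : ℕ) (C : Finset V) (x : V) :
    G.ex (G.off Ω C) (fun S =>
          if Disjoint (G.cl S {x}) B then G.val Ω B b n (C ∪ G.cl S {x})
          else if b ∈ C ∪ G.cl S {x} then 0 else 1) ≤ G.val Ω B b (n + 1) C := by
  simp only [val]
  exact Finset.le_sup' (f := fun o : Option V =>
      match o with
      | none => (0 : ℝ)
      | some x => G.ex (G.off Ω C) (fun S =>
          if Disjoint (G.cl S {x}) B then G.val Ω B b n (C ∪ G.cl S {x})
          else if b ∈ C ∪ G.cl S {x} then 0 else 1)) (Finset.mem_univ (some x))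

theorem val_succ_nonneg (Ω : Finset E) (B : Finset V) (b : V) (n : ℕ) (C : Finset V) :
    0 ≤ G.val Ω B b (n + 1) C := by
  simp only [val]
  exact Finset.le_sup' (f := fun o : Option V =>
      match o with
      | none => (0 : ℝ)
      | some x => G.ex (G.off Ω C) (fun S =>
          if Disjoint (G.cl S {x}) B then G.val Ω B b n (C ∪ G.cl S {x})
          else if b ∈ C ∪ G.cl S {x} then 0 else 1)) (Finset.mem_univ none)

theorem val_succ_le (Ω : Finset E) (B : Finset V) (b : V) (n : ℕ) (C : Finset V) {M : ℝ}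
    (h0 : 0 ≤ M) (h : ∀ x, G.ex (G.off Ω C) (fun S =>
          if Disjoint (G.cl S {x}) B then G.val Ω B b n (C ∪ G.cl S {x})
          else if b ∈ C ∪ G.cl S {x} then 0 else 1) ≤ M) :
    G.val Ω B b (n + 1) C ≤ M := by
  simp only [val]
  refine Finset.sup'_le _ _ fun o _ => ?_
  cases o with
  | none => exact h0
  | some x => exact h x

theorem exists_strategy (Ω : Finset E) (B : Finset V) (b : V) :
    ∃ q : ℕ → Finset V → Option V, ∀ n C,
      G.val Ω B b n C = G.run Ω B q (fun _ => 0) (fun C D => if b ∈ C ∪ D then 0 else 1) n C := by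
  have h : ∀ n C, ∃ o : Option V, G.val Ω B b (n + 1) C = (match o with
      | none => (0 : ℝ)
      | some x => G.ex (G.off Ω C) (fun S =>
          if Disjoint (G.cl S {x}) B then G.val Ω B b n (C ∪ G.cl S {x})
          else if b ∈ C ∪ G.cl S {x} then 0 else 1)) := by
    intro n C
    obtain ⟨o, _, ho⟩ := Finset.exists_mem_eq_sup' (s := (Finset.univ : Finset (Option V)))
      ⟨(none : Option V), Finset.mem_univ _⟩ (fun o =>
      match o with
      | none => (0 : ℝ)
      | some x => G.ex (G.off Ω C) (fun S =>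
          if Disjoint (G.cl S {x}) B then G.val Ω B b n (C ∪ G.cl S {x})
          else if b ∈ C ∪ G.cl S {x} then 0 else 1))
    exact ⟨o, ho⟩
  choose q hq using h
  refine ⟨q, fun n => ?_⟩
  induction n with
  | zero => intro C; rfl
  | succ n ih =>
    intro C
    rw [hq n C]
    simp only [run]
    cases q n C with
    | none => rfl
    | some x =>
      simp only
      refine G.ex_congr fun S _ => ?_
      split_ifs
      · exact ih _
      · rfl
      · rfl

theorem val_nonneg (Ω : Finset E) (B : Finset V) (b : V) (n : ℕ) (C : Finset V) :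
    0 ≤ G.val Ω B b n C := by
  cases n with
  | zero => exact le_refl _
  | succ n => exact G.val_succ_nonneg Ω B b n C

theorem val_mono (Ω : Finset E) (B : Finset V) (b : V) (n : ℕ) :
    ∀ C, G.val Ω B b n C ≤ G.val Ω B b (n + 1) C := by
  induction n with
  | zero => intro C; exact G.val_nonneg Ω B b 1 C
  | succ n ih =>
    intro C
    refine G.val_succ_le Ω B b n C (G.val_nonneg _ _ _ _ _) fun x => ?_
    refine le_trans ?_ (G.val_succ_ge Ω B b (n + 1) C x)
    refine G.ex_mono fun S _ => ?_
    split_ifs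
    · exact ih _
    · exact le_refl _
    · exact le_refl _

theorem val_le_one (Ω : Finset E) (B : Finset V) (b : V) (n : ℕ) (C : Finset V) :
    G.val Ω B b n C ≤ 1 := by
  obtain ⟨q, hq⟩ := G.exists_strategy Ω B b
  rw [hq]
  exact G.run_le_one (fun _ => zero_le_one) (fun _ _ => by split_ifs <;> norm_num) n C

theorem val_zero_of_mem (Ω : Finset E) (B : Finset V) {b : V} (n : ℕ) :
    ∀ C, b ∈ C → G.val Ω B b n C = 0 := by
  induction n with
  | zero => intro C _; rfl
  | succ n ih =>
    intro C hb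
    refine le_antisymm (G.val_succ_le Ω B b n C (le_refl _) fun x => ?_)
      (G.val_nonneg _ _ _ _ _)
    refine G.ex_le_of_le fun S _ => ?_
    have hb' : b ∈ C ∪ G.cl S {x} := Finset.mem_union_left _ hb
    rw [ih _ hb', if_pos hb']
    simp

/-- **superharmonic potential** of the adaptive Kozma–Nitzan game -/
theorem exists_potential (Ω : Finset E) (B : Finset V) (b : V) {ε : ℝ} (hε0 : 0 ≤ ε)
    (hε : ∀ y ∈ B, G.ex Ω (fun S => if b ∈ G.cl S {y} then 0 else 1) ≤ ε) :
    ∃ W : Finset V → ℝ, (∀ C, 0 ≤ W C) ∧ (∀ C, W C ≤ 1) ∧ W ∅ ≤ ε ∧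
      (∀ C, ¬ Disjoint C B → b ∉ C → W C = 1) ∧ (∀ C, b ∈ C → W C = 0) ∧
      ∀ C x, G.ex (G.off Ω C) (fun S => W (C ∪ G.cl S {x})) ≤ W C := by
  have hlim : ∀ C, Tendsto (fun n => G.val Ω B b n C) atTop (𝓝 (⨆ n, G.val Ω B b n C)) := by
    intro C
    refine tendsto_atTop_ciSup (monotone_nat_of_le_succ fun n => G.val_mono Ω B b n C) ?_
    exact ⟨1, by rintro _ ⟨n, rfl⟩; exact G.val_le_one Ω B b n C⟩
  set v : Finset V → ℝ := fun C => ⨆ n, G.val Ω B b n C with hv
  have hvle : ∀ C n, G.val Ω B b n C ≤ v C := by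
    intro C n
    exact le_ciSup (f := fun n => G.val Ω B b n C)
      ⟨1, by rintro _ ⟨n, rfl⟩; exact G.val_le_one Ω B b n C⟩ n
  have hv0 : ∀ C, 0 ≤ v C := fun C => (G.val_nonneg Ω B b 0 C).trans (hvle C 0)
  have hv1 : ∀ C, v C ≤ 1 := fun C => ciSup_le fun n => G.val_le_one Ω B b n C
  have hvb : ∀ C, b ∈ C → v C = 0 := by
    intro C hb
    simp only [hv]
    simp only [G.val_zero_of_mem Ω B _ C hb]
    exact ciSup_const
  refine ⟨fun C => if Disjoint C B then v C else if b ∈ C then 0 else 1, ?_, ?_, ?_, ?_, ?_, ?_⟩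
  · intro C; simp only; split_ifs
    · exact hv0 C
    · exact le_refl _
    · exact zero_le_one
  · intro C; simp only; split_ifs
    · exact hv1 C
    · exact zero_le_one
    · exact le_refl _
  · simp only [Finset.disjoint_empty_left, if_true]
    refine ciSup_le fun n => ?_
    obtain ⟨q, hq⟩ := G.exists_strategy Ω B b
    rw [hq]
    exact G.adaptive_KN Ω B b hε0 hε q n
  · intro C h1 h2
    simp only [if_neg h1, if_neg h2]
  · intro C hb
    simp only [if_pos hb]
    split_ifs
    · exact hvb C hb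
    · rfl
  · intro C x
    by_cases hC : Disjoint C B
    · simp only [if_pos hC]
      have hlim2 : Tendsto (fun n => G.ex (G.off Ω C) (fun S =>
          if Disjoint (G.cl S {x}) B then G.val Ω B b n (C ∪ G.cl S {x})
          else if b ∈ C ∪ G.cl S {x} then 0 else 1)) atTop
          (𝓝 (G.ex (G.off Ω C) (fun S => if Disjoint (C ∪ G.cl S {x}) B then
            v (C ∪ G.cl S {x}) else if b ∈ C ∪ G.cl S {x} then 0 else 1))) := by
        unfold ex
        refine tendsto_finsetSum _ fun S _ => ?_
        refine Tendsto.const_mul _ ?_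
        by_cases hd : Disjoint (G.cl S {x}) B
        · have hd' : Disjoint (C ∪ G.cl S {x}) B := Finset.disjoint_union_left.2 ⟨hC, hd⟩
          simp only [if_pos hd, if_pos hd']
          exact hlim _
        · have hd' : ¬ Disjoint (C ∪ G.cl S {x}) B := fun h =>
            hd (Finset.disjoint_union_left.1 h).2
          simp only [if_neg hd, if_neg hd']
          exact tendsto_const_nhds
      refine le_of_tendsto' hlim2 fun n => ?_
      exact (G.val_succ_ge Ω B b n C x).trans (hvle C (n + 1))
    · simp only [if_neg hC]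
      refine G.ex_le_of_le fun S _ => ?_
      have hd' : ¬ Disjoint (C ∪ G.cl S {x}) B := fun h =>
            hC (Finset.disjoint_union_left.1 h).1
      rw [if_neg hd']
      by_cases hb : b ∈ C
      · rw [if_pos (Finset.mem_union_left _ hb), if_pos hb]
      · rw [if_neg hb]; split_ifs <;> norm_num

/-! ### product inequality -/

theorem cl_reveal {S₀ S₁ S₂ : Finset E} {K : Finset V} {x : V} (hx : x ∈ K) :
    G.cl (S₀ ∪ (S₁ ∪ S₂)) K
      = G.cl (S₀ ∪ (G.off S₁ (G.cl S₁ {x}) ∪ S₂)) (K ∪ G.cl S₁ {x}) := by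
  set D := G.cl S₁ {x} with hD
  apply Finset.Subset.antisymm
  · refine G.cl_subset (Finset.subset_union_left.trans (G.subset_cl _ _)) ?_
    intro e he
    have hsat := G.sat_cl (S₀ ∪ (G.off S₁ D ∪ S₂)) (K ∪ D)
    rcases Finset.mem_union.1 he with h | h
    · exact hsat e (Finset.mem_union_left _ h)
    · rcases Finset.mem_union.1 h with h | h
      · by_cases hd : Disjoint (G.inc e) D
        · exact hsat e (Finset.mem_union_right _ (Finset.mem_union_left _
            ((G.mem_off).2 ⟨h, hd⟩)))
        · left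
          rcases G.sat_cl S₁ {x} e h with h1 | h1
          · exact h1.trans (Finset.subset_union_right.trans (G.subset_cl _ _))
          · exact absurd h1 hd
      · exact hsat e (Finset.mem_union_right _ (Finset.mem_union_right _ h))
  · refine G.cl_subset ?_ ?_
    · apply Finset.union_subset (G.subset_cl _ _)
      refine G.cl_subset ?_ ?_
      · rw [Finset.singleton_subset_iff]
        exact G.subset_cl _ _ hx
      · exact (G.sat_cl _ K).mono
          (Finset.subset_union_left.trans Finset.subset_union_right)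
    · refine (G.sat_cl _ K).mono ?_
      exact Finset.union_subset_union (Finset.Subset.refl _)
        (Finset.union_subset_union (G.off_subset _ _) (Finset.Subset.refl _))

/-- **product of superharmonic potentials** in disjoint regions bounds the joint exploration of
the cluster of `K` (any configuration `S₀` outside the regions). -/
theorem product_bound {ι : Type*} [DecidableEq ι] (J : Finset ι) (Reg : ι → Finset E)
    (hdisj : ∀ i ∈ J, ∀ j ∈ J, i ≠ j → Disjoint (Reg i) (Reg j)) (S₀ : Finset E)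
    (W : ι → Finset V → ℝ) (hW0 : ∀ j ∈ J, ∀ C, 0 ≤ W j C)
    (hWs : ∀ j ∈ J, ∀ C x, G.ex (G.off (Reg j) C) (fun S => W j (C ∪ G.cl S {x})) ≤ W j C)
    (f : Finset V → ℝ) (hf : ∀ F, f F ≤ ∏ j ∈ J, W j F) (m : ℕ) :
    ∀ (C : ι → Finset V) (K : Finset V), (∀ j ∈ J, C j ⊆ K) →
      ∑ j ∈ J, ((C j)ᶜ).card + (Kᶜ).card = m →
      G.ex (J.biUnion fun j => G.off (Reg j) (C j)) (fun S => f (G.cl (S₀ ∪ S) K))
        ≤ ∏ j ∈ J, W j (C j) := by
  induction m using Nat.strong_induction_on with
  | _ m ih =>
    intro C K hCK hm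
    by_cases hcase : ∃ j ∈ J, ∃ x ∈ K, x ∉ C j
    · obtain ⟨j, hj, x, hxK, hxC⟩ := hcase
      set rest := (J.erase j).biUnion fun i => G.off (Reg i) (C i) with hrest
      have hdr : ∀ T : Finset V, Disjoint (G.off (Reg j) T) rest := by
        intro T
        rw [hrest, Finset.disjoint_biUnion_right]
        intro i hi
        rw [Finset.mem_erase] at hi
        exact Finset.disjoint_of_subset_left (G.off_subset _ _)
          (Finset.disjoint_of_subset_right (G.off_subset _ _) (hdisj j hj i hi.2 hi.1.symm))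
      have hsplit : (J.biUnion fun i => G.off (Reg i) (C i)) = G.off (Reg j) (C j) ∪ rest := by
        rw [hrest]
        conv_lhs => rw [← Finset.insert_erase hj]
        rw [Finset.biUnion_insert]
      rw [hsplit, G.ex_union (hdr _)]
      -- rewrite through the revealed cluster
      have h1 : G.ex (G.off (Reg j) (C j)) (fun S₁ => G.ex rest
            (fun S₂ => f (G.cl (S₀ ∪ (S₁ ∪ S₂)) K)))
          = G.ex (G.off (Reg j) (C j)) (fun S₁ => (fun D S' => G.ex rest
            (fun S₂ => f (G.cl (S₀ ∪ (S' ∪ S₂)) (K ∪ D)))) (G.cl S₁ {x})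
              (G.off S₁ (G.cl S₁ {x}))) := by
        refine G.ex_congr fun S₁ _ => ?_
        refine G.ex_congr fun S₂ _ => ?_
        rw [G.cl_reveal hxK]
      rw [h1, G.resample (G.off (Reg j) (C j)) {x} (fun D S' => G.ex rest
            (fun S₂ => f (G.cl (S₀ ∪ (S' ∪ S₂)) (K ∪ D))))]
      -- induction hypothesis for each revealed cluster
      have h2 : ∀ S₁, S₁ ⊆ G.off (Reg j) (C j) →
          G.ex (G.off (G.off (Reg j) (C j)) (G.cl S₁ {x})) (fun S' => G.ex rest
            (fun S₂ => f (G.cl (S₀ ∪ (S' ∪ S₂)) (K ∪ G.cl S₁ {x}))))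
          ≤ W j (C j ∪ G.cl S₁ {x}) * ∏ i ∈ J.erase j, W i (C i) := by
        intro S₁ _
        set D := G.cl S₁ {x} with hD
        have hxD : x ∈ D := G.subset_cl S₁ {x} (Finset.mem_singleton_self x)
        set C' := Function.update C j (C j ∪ D) with hC'
        have hC'j : C' j = C j ∪ D := Function.update_self _ _ _
        have hC'i : ∀ i ∈ J.erase j, C' i = C i := fun i hi =>
          Function.update_of_ne (Finset.ne_of_mem_erase hi) _ _
        have hsplit' : (J.biUnion fun i => G.off (Reg i) (C' i))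
            = G.off (Reg j) (C j ∪ D) ∪ rest := by
          rw [hrest]
          conv_lhs => rw [← Finset.insert_erase hj]
          rw [Finset.biUnion_insert, hC'j]
          congr 1
          refine Finset.biUnion_congr rfl fun i hi => ?_
          rw [hC'i i hi]
        have hsub' : ∀ i ∈ J, C' i ⊆ K ∪ D := by
          intro i hi
          by_cases hij : i = j
          · subst hij
            rw [hC'j]
            exact Finset.union_subset_union (hCK i hi) (Finset.Subset.refl _)
          · rw [hC'i i (Finset.mem_erase.2 ⟨hij, hi⟩)]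
            exact (hCK i hi).trans Finset.subset_union_left
        have hlt : ∑ i ∈ J, ((C' i)ᶜ).card + ((K ∪ D)ᶜ).card < m := by
          have e1 : ∑ i ∈ J, ((C' i)ᶜ).card < ∑ i ∈ J, ((C i)ᶜ).card := by
            refine Finset.sum_lt_sum (fun i hi => ?_) ⟨j, hj, ?_⟩
            · by_cases hij : i = j
              · subst hij
                rw [hC'j]
                exact Finset.card_le_card (Finset.compl_subset_compl.2 Finset.subset_union_left)
              · rw [hC'i i (Finset.mem_erase.2 ⟨hij, hi⟩)]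
            · rw [hC'j]
              refine Finset.card_lt_card ?_
              rw [Finset.ssubset_iff_of_subset
                (Finset.compl_subset_compl.2 Finset.subset_union_left)]
              exact ⟨x, by simpa using hxC, by simp [hxD]⟩
          have e2 : ((K ∪ D)ᶜ).card ≤ (Kᶜ).card :=
            Finset.card_le_card (Finset.compl_subset_compl.2 Finset.subset_union_left)
          omega
        have h3 := ih _ hlt C' (K ∪ D) hsub' rfl
        rw [hsplit', G.ex_union (hdr _)] at h3
        rw [G.off_off]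
        refine h3.trans (le_of_eq ?_)
        rw [← Finset.mul_prod_erase J (fun i => W i (C' i)) hj, hC'j]
        congr 1
        exact Finset.prod_congr rfl fun i hi => by rw [hC'i i hi]
      refine (G.ex_mono h2).trans ?_
      rw [G.ex_mul_right, ← Finset.mul_prod_erase J (fun i => W i (C i)) hj]
      refine mul_le_mul_of_nonneg_right (hWs j hj (C j) x) ?_
      exact Finset.prod_nonneg fun i hi => hW0 i (Finset.mem_of_mem_erase hi) _
    · push Not at hcase
      have hCeq : ∀ j ∈ J, C j = K := fun j hj =>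
        Finset.Subset.antisymm (hCK j hj) (fun x hx => hcase j hj x hx)
      by_cases hK : G.cl S₀ K = K
      · have hval : ∀ S, S ⊆ (J.biUnion fun j => G.off (Reg j) (C j)) →
            G.cl (S₀ ∪ S) K = K := by
          intro S hS
          refine G.cl_eq_of_sat ?_
          intro e he
          rcases Finset.mem_union.1 he with h | h
          · have := G.sat_cl S₀ K e h
            rwa [hK] at this
          · have h1 := hS h
            rw [Finset.mem_biUnion] at h1
            obtain ⟨j, hj, h2⟩ := h1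
            rw [hCeq j hj] at h2
            exact Or.inr ((G.mem_off).1 h2).2
        refine G.ex_le_of_le fun S hS => ?_
        rw [hval S hS]
        refine (hf K).trans (le_of_eq ?_)
        exact Finset.prod_congr rfl fun j hj => by rw [hCeq j hj]
      · have hsub : K ⊆ G.cl S₀ K := G.subset_cl S₀ K
        have hlt : ∑ i ∈ J, ((C i)ᶜ).card + ((G.cl S₀ K)ᶜ).card < m := by
          have : ((G.cl S₀ K)ᶜ).card < (Kᶜ).card := by
            refine Finset.card_lt_card ?_
            rw [Finset.compl_ssubset_compl]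
            exact Finset.ssubset_iff_subset_ne.2 ⟨hsub, fun h => hK h.symm⟩
          omega
        have h3 := ih _ hlt C (G.cl S₀ K) (fun j hj => (hCK j hj).trans hsub) rfl
        refine le_trans (le_of_eq ?_) h3
        refine G.ex_congr fun S _ => ?_
        congr 1
        apply Finset.Subset.antisymm
        · exact G.cl_mono (Finset.Subset.refl _) hsub
        · refine G.cl_subset ?_ (G.sat_cl _ _)
          exact G.cl_mono Finset.subset_union_left (Finset.Subset.refl _)

/-- **PKN** with a fixed outside configuration `S₀`. -/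
theorem PKN_cond {ι : Type*} [DecidableEq ι] (J : Finset ι) (Reg : ι → Finset E)
    (hdisj : ∀ i ∈ J, ∀ j ∈ J, i ≠ j → Disjoint (Reg i) (Reg j)) (S₀ : Finset E)
    (B : ι → Finset V) (b : ι → V) (ε : ι → ℝ) (hε0 : ∀ j ∈ J, 0 ≤ ε j)
    (hε : ∀ j ∈ J, ∀ y ∈ B j,
      G.ex (Reg j) (fun S => if b j ∈ G.cl S {y} then 0 else 1) ≤ ε j) (A : Finset V) :
    G.ex (J.biUnion Reg) (fun S =>
        if ∀ j ∈ J, ¬ Disjoint (G.cl (S₀ ∪ S) A) (B j) ∧ b j ∉ G.cl (S₀ ∪ S) A then 1 else 0)
      ≤ ∏ j ∈ J, ε j := by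
  classical
  have hex : ∀ j : ι, ∃ W : Finset V → ℝ, j ∈ J → ((∀ C, 0 ≤ W C) ∧ (∀ C, W C ≤ 1) ∧ W ∅ ≤ ε j ∧
      (∀ C, ¬ Disjoint C (B j) → b j ∉ C → W C = 1) ∧ (∀ C, b j ∈ C → W C = 0) ∧
      ∀ C x, G.ex (G.off (Reg j) C) (fun S => W (C ∪ G.cl S {x})) ≤ W C) := by
    intro j
    by_cases hj : j ∈ J
    · obtain ⟨W, hW⟩ := G.exists_potential (Reg j) (B j) (b j) (hε0 j hj) (hε j hj)
      exact ⟨W, fun _ => hW⟩
    · exact ⟨fun _ => 0, fun h => absurd h hj⟩
  choose W hW using hex
  have h1 := G.product_bound J Reg hdisj S₀ W (fun j hj C => (hW j hj).1 C)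
    (fun j hj => (hW j hj).2.2.2.2.2)
    (fun F => if ∀ j ∈ J, ¬ Disjoint F (B j) ∧ b j ∉ F then 1 else 0) ?_ _
    (fun _ => ∅) A (fun _ _ => Finset.empty_subset _) rfl
  · simp only [off_empty] at h1
    refine h1.trans ?_
    exact Finset.prod_le_prod (fun j hj => (hW j hj).1 ∅) (fun j hj => (hW j hj).2.2.1)
  · intro F
    split_ifs with h
    · refine le_of_eq ?_
      symm
      exact Finset.prod_eq_one fun j hj => (hW j hj).2.2.2.1 F (h j hj).1 (h j hj).2
    · exact Finset.prod_nonneg fun j hj => (hW j hj).1 F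

/-- **PKN** (product Kozma–Nitzan). -/
theorem PKN {ι : Type*} [DecidableEq ι] (Ω : Finset E) (J : Finset ι) (Reg : ι → Finset E)
    (hReg : ∀ j ∈ J, Reg j ⊆ Ω)
    (hdisj : ∀ i ∈ J, ∀ j ∈ J, i ≠ j → Disjoint (Reg i) (Reg j))
    (B : ι → Finset V) (b : ι → V) (ε : ι → ℝ) (hε0 : ∀ j ∈ J, 0 ≤ ε j)
    (hε : ∀ j ∈ J, ∀ y ∈ B j,
      G.ex (Reg j) (fun S => if b j ∈ G.cl S {y} then 0 else 1) ≤ ε j) (A : Finset V) :
    G.ex Ω (fun S =>
        if ∀ j ∈ J, ¬ Disjoint (G.cl S A) (B j) ∧ b j ∉ G.cl S A then 1 else 0)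
      ≤ ∏ j ∈ J, ε j := by
  set U := J.biUnion Reg with hU
  have hUΩ : U ⊆ Ω := by
    rw [hU]; exact Finset.biUnion_subset.2 hReg
  have hΩ : Ω = (Ω \ U) ∪ U := by rw [Finset.sdiff_union_of_subset hUΩ]
  rw [hΩ, G.ex_union Finset.sdiff_disjoint]
  refine G.ex_le_of_le fun S₀ _ => ?_
  exact G.PKN_cond J Reg hdisj S₀ B b ε hε0 hε A

end HG

end Crest.Agent.R147.KN
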