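import Crest.Agent.R147.KN.LemW

/-!
# The Poisson equation `α - QPα = F - μ` with monotone `α`
-/

set_option autoImplicit false
set_option linter.unusedSectionVars false

open Finset

namespace Crest.Agent.R147.KN

namespace HG

variable {V E : Type*} [DecidableEq V] [DecidableEq E] [Fintype V] (G : HG V E)

theorem ex_hasSum {A : Finset E} {f : ℕ → Finset E → ℝ} {F : Finset E → ℝ}
    (h : ∀ S, HasSum (fun n => f n S) (F S)) :
    HasSum (fun n => G.ex A (f n)) (G.ex A F) := by
  unfold ex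
  exact hasSum_sum fun S _ => (h S).mul_left _

/-- probability that all hyperedges of `A` are closed -/
theorem ex_ind_empty (A : Finset E) :
    G.ex A (fun S => if S = ∅ then 1 else 0) = ∏ e ∈ A, (1 - G.p e) := by
  unfold ex
  rw [Finset.sum_eq_single ∅]
  · simp [wt]
  · intro S _ hS
    simp [hS]
  · intro h
    exact absurd (Finset.empty_mem_powerset A) h

/-- probability that all hyperedges of `Ω` are closed -/
noncomputable def cc (Ω : Finset E) : ℝ := ∏ e ∈ Ω, (1 - G.p e)

theorem cc_pos (Ω : Finset E) : 0 < G.cc Ω :=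
  Finset.prod_pos fun e _ => by linarith [G.p_lt e]

theorem cc_le_one (Ω : Finset E) : G.cc Ω ≤ 1 :=
  Finset.prod_le_one (fun e _ => by linarith [G.p_lt e]) (fun e _ => by linarith [G.p_nonneg e])

theorem cc_anti {A Ω : Finset E} (h : A ⊆ Ω) : G.cc Ω ≤ G.cc A := by
  unfold cc
  rw [← Finset.prod_sdiff h]
  have h1 : ∏ e ∈ Ω \ A, (1 - G.p e) ≤ 1 :=
    Finset.prod_le_one (fun e _ => by linarith [G.p_lt e]) (fun e _ => by linarith [G.p_nonneg e])
  have h2 : 0 ≤ ∏ e ∈ A, (1 - G.p e) :=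
    Finset.prod_nonneg fun e _ => by linarith [G.p_lt e]
  nlinarith

theorem cl_empty (D : Finset V) : G.cl ∅ D = D :=
  G.cl_eq_of_sat (by intro e he; exact absurd he (Finset.notMem_empty e))

/-- upper bound using the all-closed configuration -/
theorem ex_le_empty {A Ω : Finset E} (hA : A ⊆ Ω) {f : Finset E → ℝ} {M : ℝ}
    (h : ∀ S, f S ≤ M) : G.ex A f ≤ M - G.cc Ω * (M - f ∅) := by
  have h1 : G.ex A f ≤ G.ex A (fun S => M - (if S = ∅ then 1 else 0) * (M - f ∅)) := by
    refine G.ex_mono fun S _ => ?_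
    by_cases hS : S = ∅
    · subst hS; simp
    · rw [if_neg hS]; linarith [h S]
  rw [G.ex_sub, G.ex_const, G.ex_mul_right, G.ex_ind_empty] at h1
  have h2 := G.cc_anti hA
  have h3 : 0 ≤ M - f ∅ := by linarith [h ∅]
  unfold cc at h2 ⊢
  nlinarith

theorem empty_le_ex {A Ω : Finset E} (hA : A ⊆ Ω) {f : Finset E → ℝ} {m : ℝ}
    (h : ∀ S, m ≤ f S) : m + G.cc Ω * (f ∅ - m) ≤ G.ex A f := by
  have := G.ex_le_empty hA (f := fun S => - f S) (M := -m) (fun S => by linarith [h S])
  rw [G.ex_neg] at this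
  linarith

theorem pos_notConn (Ω : Finset E) {k : V} {s : Finset V} (hk : k ∉ s) :
    0 < G.ex Ω (fun S => if k ∈ G.cl S s then (0 : ℝ) else 1) := by
  have := G.empty_le_ex (Finset.Subset.refl Ω)
    (f := fun S => if k ∈ G.cl S s then (0 : ℝ) else 1) (m := 0)
    (fun S => by split_ifs <;> norm_num)
  simp only [cl_empty, if_neg hk] at this
  have := G.cc_pos Ω
  linarith

/-- the operator `QP` -/
noncomputable def QP (Ω : Finset E) (k : V) (s : Finset V) (f : Finset V → ℝ) :
    Finset V → ℝ := G.Qop Ω s (G.Pop Ω k f)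

theorem QP_mono (Ω : Finset E) (k : V) (s : Finset V) {f : Finset V → ℝ} (hf : Monotone f) :
    Monotone (G.QP Ω k s f) := G.Qop_mono Ω s (G.Pop_anti Ω k hf)

theorem QP_invariant (Ω : Finset E) (k : V) (s : Finset V) (f : Finset V → ℝ) :
    G.ex Ω (fun S => if k ∈ G.cl S s then 0 else G.QP Ω k s f (G.cl S {k}))
      = G.ex Ω (fun S => if k ∈ G.cl S s then 0 else f (G.cl S {k})) := by
  have h1 := G.ex_split_k Ω k s (fun T _ => G.Pop Ω k f T)
  have h2 := G.ex_split_s Ω k s (fun _ R => f R)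
  unfold QP Qop
  rw [← h1, h2]
  rfl

theorem QP_contract (Ω : Finset E) (k : V) (s : Finset V) {f : Finset V → ℝ} {δ : ℝ}
    (h : ∀ R R', f R - f R' ≤ δ) (R R' : Finset V) :
    G.QP Ω k s f R - G.QP Ω k s f R' ≤ (1 - G.cc Ω) * δ := by
  obtain ⟨R₀, hR₀⟩ := Finite.exists_max f
  set M := f R₀ with hM
  have hlow : ∀ R, M - δ ≤ f R := fun R => by linarith [h R₀ R]
  set g := G.Pop Ω k f with hg
  have hg1 : ∀ T, g T ≤ M := fun T => G.ex_le_of_le fun S _ => hR₀ _
  have hg2 : ∀ T, M - δ ≤ g T := fun T => G.le_ex_of_le fun S _ => hlow _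
  have h1 : G.QP Ω k s f R ≤ M - G.cc Ω * (M - g s) := by
    have := G.ex_le_empty (G.off_subset Ω R) (f := fun S => g (G.cl S s)) (M := M)
      (fun S => hg1 _)
    rw [cl_empty] at this
    exact this
  have h2 : (M - δ) + G.cc Ω * (g s - (M - δ)) ≤ G.QP Ω k s f R' := by
    have := G.empty_le_ex (G.off_subset Ω R') (f := fun S => g (G.cl S s)) (m := M - δ)
      (fun S => hg2 _)
    rw [cl_empty] at this
    exact this
  linarith

/-- iterates of `QP` -/
noncomputable def it (Ω : Finset E) (k : V) (s : Finset V) (f : Finset V → ℝ) (n : ℕ) :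
    Finset V → ℝ := (G.QP Ω k s)^[n] f

theorem it_zero (Ω : Finset E) (k : V) (s : Finset V) (f : Finset V → ℝ) :
    G.it Ω k s f 0 = f := rfl

theorem it_succ (Ω : Finset E) (k : V) (s : Finset V) (f : Finset V → ℝ) (n : ℕ) :
    G.it Ω k s f (n + 1) = G.QP Ω k s (G.it Ω k s f n) := by
  unfold it
  rw [Function.iterate_succ_apply']

theorem it_mono (Ω : Finset E) (k : V) (s : Finset V) {f : Finset V → ℝ} (hf : Monotone f)
    (n : ℕ) : Monotone (G.it Ω k s f n) := by
  induction n with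
  | zero => exact hf
  | succ n ih => rw [it_succ]; exact G.QP_mono Ω k s ih

theorem it_osc (Ω : Finset E) (k : V) (s : Finset V) {f : Finset V → ℝ} {δ : ℝ}
    (h : ∀ R R', f R - f R' ≤ δ) (n : ℕ) :
    ∀ R R', G.it Ω k s f n R - G.it Ω k s f n R' ≤ (1 - G.cc Ω) ^ n * δ := by
  induction n with
  | zero => simpa [it_zero] using h
  | succ n ih =>
    intro R R'
    have := G.QP_contract Ω k s ih R R'
    rw [pow_succ, it_succ]
    calc _ ≤ (1 - G.cc Ω) * ((1 - G.cc Ω) ^ n * δ) := this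
      _ = _ := by ring

theorem it_mean (Ω : Finset E) (k : V) (s : Finset V) {f : Finset V → ℝ}
    (h : G.ex Ω (fun S => if k ∈ G.cl S s then 0 else f (G.cl S {k})) = 0) (n : ℕ) :
    G.ex Ω (fun S => if k ∈ G.cl S s then 0 else G.it Ω k s f n (G.cl S {k})) = 0 := by
  induction n with
  | zero => exact h
  | succ n ih =>
    rw [it_succ, QP_invariant]
    exact ih

/-- a mean-zero function of oscillation `≤ δ` is bounded by `δ` -/
theorem abs_le_of_mean (Ω : Finset E) {k : V} {s : Finset V} (hk : k ∉ s) {f : Finset V → ℝ}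
    {δ : ℝ} (h : ∀ R R', f R - f R' ≤ δ)
    (h0 : G.ex Ω (fun S => if k ∈ G.cl S s then 0 else f (G.cl S {k})) = 0) (R : Finset V) :
    |f R| ≤ δ := by
  have hpos := G.pos_notConn Ω hk
  rw [abs_le]
  constructor
  · by_contra hlt
    push Not at hlt
    have h1 : ∀ R', f R' ≤ f R + δ := fun R' => by linarith [h R' R]
    have h2 : G.ex Ω (fun S => if k ∈ G.cl S s then 0 else f (G.cl S {k}))
        ≤ G.ex Ω (fun S => (if k ∈ G.cl S s then (0 : ℝ) else 1) * (f R + δ)) := by
      refine G.ex_mono fun S _ => ?_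
      split_ifs
      · simp
      · simpa using h1 _
    rw [h0, G.ex_mul_right] at h2
    nlinarith
  · by_contra hlt
    push Not at hlt
    have h1 : ∀ R', f R - δ ≤ f R' := fun R' => by linarith [h R R']
    have h2 : G.ex Ω (fun S => (if k ∈ G.cl S s then (0 : ℝ) else 1) * (f R - δ))
        ≤ G.ex Ω (fun S => if k ∈ G.cl S s then 0 else f (G.cl S {k})) := by
      refine G.ex_mono fun S _ => ?_
      split_ifs
      · simp
      · simpa using h1 _
    rw [h0, G.ex_mul_right] at h2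
    nlinarith

/-- **Poisson equation** with a monotone solution -/
theorem exists_poisson (Ω : Finset E) {k : V} {s : Finset V} (hk : k ∉ s) {f : Finset V → ℝ}
    (hf : Monotone f)
    (h0 : G.ex Ω (fun S => if k ∈ G.cl S s then 0 else f (G.cl S {k})) = 0) :
    ∃ α : Finset V → ℝ, Monotone α ∧ ∀ R, α R - G.Qop Ω s (G.Pop Ω k α) R = f R := by
  obtain ⟨R₁, hR₁⟩ := Finite.exists_max f
  obtain ⟨R₂, hR₂⟩ := Finite.exists_min f
  set δ := f R₁ - f R₂ with hδ
  have hosc : ∀ R R', f R - f R' ≤ δ := fun R R' => by linarith [hR₁ R, hR₂ R']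
  have hb : ∀ n R, |G.it Ω k s f n R| ≤ (1 - G.cc Ω) ^ n * δ := fun n R =>
    G.abs_le_of_mean Ω hk (G.it_osc Ω k s hosc n) (G.it_mean Ω k s h0 n) R
  have hc0 : 0 ≤ 1 - G.cc Ω := by linarith [G.cc_le_one Ω]
  have hc1 : 1 - G.cc Ω < 1 := by linarith [G.cc_pos Ω]
  have hs : ∀ R, Summable (fun n => G.it Ω k s f n R) := by
    intro R
    refine Summable.of_norm_bounded (g := fun n => (1 - G.cc Ω) ^ n * δ)
      ((summable_geometric_of_lt_one hc0 hc1).mul_right δ) ?_
    intro n
    rw [Real.norm_eq_abs]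
    exact hb n R
  obtain ⟨α, hα⟩ : ∃ α : Finset V → ℝ, ∀ R, HasSum (fun n => G.it Ω k s f n R) (α R) :=
    ⟨fun R => ∑' n, G.it Ω k s f n R, fun R => (hs R).hasSum⟩
  refine ⟨α, ?_, ?_⟩
  · intro R R' h
    exact hasSum_le (fun n => G.it_mono Ω k s hf n h) (hα R) (hα R')
  · intro R
    have h2 : ∀ T, HasSum (fun n => G.Pop Ω k (G.it Ω k s f n) T) (G.Pop Ω k α T) := by
      intro T
      unfold Pop
      exact G.ex_hasSum (f := fun n S => G.it Ω k s f n (G.cl S {k}))
        (F := fun S => α (G.cl S {k})) fun S => hα _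
    have h3 : HasSum (fun n => G.QP Ω k s (G.it Ω k s f n) R) (G.Qop Ω s (G.Pop Ω k α) R) := by
      unfold QP Qop
      exact G.ex_hasSum (f := fun n S => G.Pop Ω k (G.it Ω k s f n) (G.cl S s))
        (F := fun S => G.Pop Ω k α (G.cl S s)) fun S => h2 _
    have h3' : HasSum (fun n => G.it Ω k s f (n + 1) R) (G.Qop Ω s (G.Pop Ω k α) R) := by
      simpa only [it_succ] using h3
    have h4 := HasSum.zero_add (f := fun n => G.it Ω k s f n R) h3'
    have h5 := (hα R).unique h4
    rw [it_zero] at h5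
    linarith

end HG

end Crest.Agent.R147.KN
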