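import Crest.Agent.R147.KN.Poisson

/-!
# Lemma C* and Theorem T* (adaptive Theorem T)
-/

set_option autoImplicit false
set_option linter.unusedSectionVars false

open Finset

namespace Crest.Agent.R147.KN

namespace HG

variable {V E : Type*} [DecidableEq V] [DecidableEq E] [Fintype V] (G : HG V E)

/-- Expected reward of an adaptive exploration.  State `C` = union of the clusters revealed so
far; with `n + 1` steps left the strategy `q n C` stops (reward `Φ₀ C`) or queries a vertex `x`,
whose cluster `D` in the fresh configuration off `C` is revealed; if `D` meets the stop set `Z` the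
exploration ends with reward `Φ₁ C D`. -/
noncomputable def run (Ω : Finset E) (Z : Finset V) (q : ℕ → Finset V → Option V)
    (Φ₀ : Finset V → ℝ) (Φ₁ : Finset V → Finset V → ℝ) : ℕ → Finset V → ℝ
  | 0, C => Φ₀ C
  | n + 1, C =>
    match q n C with
    | none => Φ₀ C
    | some x => G.ex (G.off Ω C) (fun S =>
        if Disjoint (G.cl S {x}) Z then run Ω Z q Φ₀ Φ₁ n (C ∪ G.cl S {x})
        else Φ₁ C (G.cl S {x}))

section run

variable {Ω : Finset E} {Z : Finset V} {q : ℕ → Finset V → Option V}

theorem run_mono {Φ₀ Φ₀' : Finset V → ℝ} {Φ₁ Φ₁' : Finset V → Finset V → ℝ}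
    (h0 : ∀ C, Disjoint C Z → Φ₀ C ≤ Φ₀' C)
    (h1 : ∀ C D, Disjoint C Z → ¬ Disjoint D Z → Φ₁ C D ≤ Φ₁' C D) (n : ℕ) :
    ∀ C, Disjoint C Z → G.run Ω Z q Φ₀ Φ₁ n C ≤ G.run Ω Z q Φ₀' Φ₁' n C := by
  induction n with
  | zero => intro C hC; exact h0 C hC
  | succ n ih =>
    intro C hC
    simp only [run]
    cases q n C with
    | none => exact h0 C hC
    | some x =>
      refine G.ex_mono fun S _ => ?_
      by_cases hd : Disjoint (G.cl S {x}) Z
      · simp only [if_pos hd]
        exact ih _ (Finset.disjoint_union_left.2 ⟨hC, hd⟩)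
      · simp only [if_neg hd]
        exact h1 _ _ hC hd

theorem run_sub {Φ₀ Φ₀' : Finset V → ℝ} {Φ₁ Φ₁' : Finset V → Finset V → ℝ} (c : ℝ) (n : ℕ) :
    ∀ C, G.run Ω Z q (fun C => Φ₀ C - c * Φ₀' C) (fun C D => Φ₁ C D - c * Φ₁' C D) n C
      = G.run Ω Z q Φ₀ Φ₁ n C - c * G.run Ω Z q Φ₀' Φ₁' n C := by
  induction n with
  | zero => intro C; rfl
  | succ n ih =>
    intro C
    simp only [run]
    cases q n C with
    | none => rfl
    | some x =>
      simp only
      rw [← G.ex_mul_left, ← G.ex_sub]
      refine G.ex_congr fun S _ => ?_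
      by_cases hd : Disjoint (G.cl S {x}) Z
      · simp only [if_pos hd]
        exact ih _
      · simp only [if_neg hd]

theorem run_congr {Φ₀ Φ₀' : Finset V → ℝ} {Φ₁ Φ₁' : Finset V → Finset V → ℝ}
    (h0 : ∀ C, Disjoint C Z → Φ₀ C = Φ₀' C)
    (h1 : ∀ C D, Disjoint C Z → ¬ Disjoint D Z → Φ₁ C D = Φ₁' C D) (n : ℕ)
    (C : Finset V) (hC : Disjoint C Z) :
    G.run Ω Z q Φ₀ Φ₁ n C = G.run Ω Z q Φ₀' Φ₁' n C :=
  le_antisymm (G.run_mono (fun C hC => (h0 C hC).le) (fun C D hC hD => (h1 C D hC hD).le) n C hC)
    (G.run_mono (fun C hC => (h0 C hC).ge) (fun C D hC hD => (h1 C D hC hD).ge) n C hC)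

theorem run_zero (n : ℕ) (C : Finset V) :
    G.run Ω Z q (fun _ => 0) (fun _ _ => 0) n C = 0 := by
  induction n generalizing C with
  | zero => rfl
  | succ n ih =>
    simp only [run]
    cases q n C with
    | none => rfl
    | some x =>
      simp only [ih, ite_self]
      rw [G.ex_const]

theorem run_nonneg {Φ₀ : Finset V → ℝ} {Φ₁ : Finset V → Finset V → ℝ}
    (h0 : ∀ C, Disjoint C Z → 0 ≤ Φ₀ C)
    (h1 : ∀ C D, Disjoint C Z → ¬ Disjoint D Z → 0 ≤ Φ₁ C D) (n : ℕ)
    (C : Finset V) (hC : Disjoint C Z) : 0 ≤ G.run Ω Z q Φ₀ Φ₁ n C := by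
  have := G.run_mono (q := q) (Ω := Ω) (Φ₀ := fun _ => 0) (Φ₁ := fun _ _ => 0) h0 h1 n C hC
  rwa [G.run_zero] at this

/-- **Lemma C*** -/
theorem run_ge_w (k : V) (s : Finset V) {α f₀ : Finset V → ℝ}
    (hα : Monotone α) (hsol : ∀ R, α R - G.Qop Ω s (G.Pop Ω k α) R = f₀ R)
    (hZ : insert k s ⊆ Z) (n : ℕ) : ∀ C,
    G.run Ω Z q (G.w Ω k s α)
        (fun C D => if Disjoint D (insert k s) then G.w Ω k s α (C ∪ D) else 0) n C
      - G.w Ω k s α C
    ≤ G.run Ω Z q (fun _ => 0)
        (fun _ D => if k ∈ D ∧ Disjoint D s then f₀ D else 0) n C := by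
  induction n with
  | zero => intro C; simp [run]
  | succ n ih =>
    intro C
    simp only [run]
    cases q n C with
    | none => simp
    | some x =>
      simp only
      have hinc := G.incr_le Ω k s hα hsol C x
      have hmain : G.ex (G.off Ω C) (fun S =>
            (if Disjoint (G.cl S {x}) Z then
              G.run Ω Z q (G.w Ω k s α)
                (fun C D => if Disjoint D (insert k s) then G.w Ω k s α (C ∪ D) else 0) n
                (C ∪ G.cl S {x})
            else if Disjoint (G.cl S {x}) (insert k s) then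
              G.w Ω k s α (C ∪ G.cl S {x}) else 0)
            - (if Disjoint (G.cl S {x}) (insert k s) then
              G.w Ω k s α (C ∪ G.cl S {x}) else 0)
            + (if k ∈ G.cl S {x} ∧ Disjoint (G.cl S {x}) s then f₀ (G.cl S {x}) else 0))
          ≤ G.ex (G.off Ω C) (fun S =>
            if Disjoint (G.cl S {x}) Z then
              G.run Ω Z q (fun _ => 0)
                (fun _ D => if k ∈ D ∧ Disjoint D s then f₀ D else 0) n (C ∪ G.cl S {x})
            else (if k ∈ G.cl S {x} ∧ Disjoint (G.cl S {x}) s then f₀ (G.cl S {x}) else 0)) := by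
        refine G.ex_mono fun S _ => ?_
        by_cases hd : Disjoint (G.cl S {x}) Z
        · have hd' : Disjoint (G.cl S {x}) (insert k s) :=
            Finset.disjoint_of_subset_right hZ hd
          have hk : k ∉ G.cl S {x} := (Finset.disjoint_insert_right.1 hd').1
          rw [if_pos hd, if_pos hd, if_pos hd', if_neg (fun h => hk h.1)]
          have := ih (C ∪ G.cl S {x})
          linarith
        · rw [if_neg hd, if_neg hd]
          linarith
      rw [G.ex_add, G.ex_sub] at hmain
      linarith

end run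

/-- `E[u(C_i); i ≁ s]` -/
noncomputable def cE (Ω : Finset E) (s : Finset V) (i : V) (u : Finset V → ℝ) : ℝ :=
  G.ex Ω (fun S => if Disjoint (G.cl S {i}) s then u (G.cl S {i}) else 0)

/-- `E[u(C_i); i ~ j, i ≁ s]` -/
noncomputable def cJ (Ω : Finset E) (j : V) (s : Finset V) (i : V) (u : Finset V → ℝ) : ℝ :=
  G.ex Ω (fun S => if j ∈ G.cl S {i} ∧ Disjoint (G.cl S {i}) s then u (G.cl S {i}) else 0)

theorem cE_split (Ω : Finset E) (j : V) (s : Finset V) (i : V) (u : Finset V → ℝ) :
    G.cE Ω s i u = G.cE Ω (insert j s) i u + G.cJ Ω j s i u := by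
  unfold cE cJ
  rw [← G.ex_add]
  refine G.ex_congr fun S _ => ?_
  simp only [Finset.disjoint_insert_right]
  by_cases h1 : j ∈ G.cl S {i} <;> by_cases h2 : Disjoint (G.cl S {i}) s <;> simp [h1, h2]

theorem cJ_sub (Ω : Finset E) (j : V) (s : Finset V) (i : V) (u v : Finset V → ℝ) (c : ℝ) :
    G.cJ Ω j s i (fun R => u R - c * v R) = G.cJ Ω j s i u - c * G.cJ Ω j s i v := by
  unfold cJ
  rw [← G.ex_mul_left, ← G.ex_sub]
  refine G.ex_congr fun S _ => ?_
  split_ifs <;> simp

theorem cE_sub (Ω : Finset E) (s : Finset V) (i : V) (u v : Finset V → ℝ) (c : ℝ) :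
    G.cE Ω s i (fun R => u R - c * v R) = G.cE Ω s i u - c * G.cE Ω s i v := by
  unfold cE
  rw [← G.ex_mul_left, ← G.ex_sub]
  refine G.ex_congr fun S _ => ?_
  split_ifs <;> simp

theorem cE_eq (Ω : Finset E) (s : Finset V) (k : V) (u : Finset V → ℝ) :
    G.cE Ω s k u = G.ex Ω (fun S => if k ∈ G.cl S s then 0 else u (G.cl S {k})) := by
  unfold cE
  refine G.ex_congr fun S _ => ?_
  by_cases hk : k ∈ G.cl S s
  · rw [if_pos hk, if_neg ((G.mem_cl_iff_not_disj).1 hk)]
  · rw [if_neg hk, if_pos ((G.notMem_cl_iff_disj).1 hk)]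

theorem cE_one_pos (Ω : Finset E) {s : Finset V} {k : V} (hk : k ∉ s) :
    0 < G.cE Ω s k (fun _ => 1) := by
  rw [cE_eq]
  exact G.pos_notConn Ω hk

/-- **Theorem T*** (adaptive Theorem T).  Poles `P`, killing set `s`, stop set `Z = P ∪ s`. -/
theorem Tstar (Ω : Finset E) (Z : Finset V) (q : ℕ → Finset V → Option V) (N : ℕ)
    (P : Finset V) : ∀ s : Finset V, Disjoint P s → Z = P ∪ s →
    ∃ ℓ : V → ℝ, (∀ i, 0 ≤ ℓ i) ∧
      (∀ u : Finset V → ℝ, Monotone u →
        ∑ i ∈ P, ℓ i * G.cE Ω s i u
          ≤ G.run Ω Z q (fun _ => 0) (fun C D => if Disjoint D s then u (C ∪ D) else 0) N ∅) ∧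
      ∑ i ∈ P, ℓ i * G.cE Ω s i (fun _ => 1)
          = G.run Ω Z q (fun _ => 0) (fun _ D => if Disjoint D s then 1 else 0) N ∅ := by
  induction P using Finset.induction_on with
  | empty =>
    intro s _ hZ
    rw [Finset.empty_union] at hZ
    subst hZ
    have hz : ∀ Φ : Finset V → Finset V → ℝ, G.run Ω Z q (fun _ => 0)
        (fun C D => if Disjoint D Z then Φ C D else 0) N ∅ = 0 := by
      intro Φ
      refine (G.run_congr (Φ₀' := fun _ => 0) (Φ₁' := fun _ _ => 0) (fun _ _ => rfl)
        (fun C D _ hD => ?_) N ∅ (Finset.disjoint_empty_left _)).trans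
        (G.run_zero (Ω := Ω) (Z := Z) (q := q) N ∅)
      rw [if_neg hD]
    refine ⟨fun _ => 0, fun _ => le_refl _, fun u _ => ?_, ?_⟩
    · rw [hz (fun C D => u (C ∪ D))]; simp
    · rw [hz (fun _ _ => 1)]; simp
  | insert j P hj ih =>
    intro s hPs hZ
    rw [Finset.disjoint_insert_left] at hPs
    obtain ⟨hjs, hPs⟩ := hPs
    have hPs' : Disjoint P (insert j s) := by
      rw [Finset.disjoint_insert_right]; exact ⟨hj, hPs⟩
    have hZ' : Z = P ∪ insert j s := by
      rw [hZ, Finset.insert_union, Finset.union_insert]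
    obtain ⟨ℓ, hℓ0, hℓu, hℓ1⟩ := ih (insert j s) hPs' hZ'
    have hkZ : insert j s ⊆ Z := by rw [hZ']; exact Finset.subset_union_right
    -- the level functional
    set rJ : (Finset V → ℝ) → ℝ := fun F => G.run Ω Z q (fun _ => 0)
      (fun _ D => if j ∈ D ∧ Disjoint D s then F D else 0) N ∅ with hrJ
    set AA : (Finset V → ℝ) → ℝ := fun F => rJ F - ∑ i ∈ P, ℓ i * G.cJ Ω j s i F with hAA
    have hrJsub : ∀ (F H : Finset V → ℝ) (c : ℝ), rJ (fun R => F R - c * H R)
        = rJ F - c * rJ H := by
      intro F H c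
      simp only [hrJ]
      rw [← G.run_sub]
      refine G.run_congr (fun _ _ => by ring) (fun C D _ _ => ?_) N ∅
        (Finset.disjoint_empty_left _)
      split_ifs <;> ring
    have hAAsub : ∀ (F H : Finset V → ℝ) (c : ℝ), AA (fun R => F R - c * H R)
        = AA F - c * AA H := by
      intro F H c
      simp only [hAA]
      rw [hrJsub]
      have : ∑ i ∈ P, ℓ i * G.cJ Ω j s i (fun R => F R - c * H R)
          = ∑ i ∈ P, ℓ i * G.cJ Ω j s i F - c * ∑ i ∈ P, ℓ i * G.cJ Ω j s i H := by
        rw [Finset.mul_sum, ← Finset.sum_sub_distrib]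
        refine Finset.sum_congr rfl fun i _ => ?_
        rw [G.cJ_sub]; ring
      rw [this]; ring
    -- level inequality for mean zero monotone functions
    have hlevel0 : ∀ f : Finset V → ℝ, Monotone f → G.cE Ω s j f = 0 → 0 ≤ AA f := by
      intro f hf h0
      rw [cE_eq] at h0
      obtain ⟨α, hα, hsol⟩ := G.exists_poisson Ω hjs hf h0
      have h1 := G.run_ge_w (q := q) j s hα hsol hkZ N ∅
      rw [G.w_empty, sub_zero] at h1
      have h2 : G.run Ω Z q (fun _ => 0)
          (fun C D => if Disjoint D (insert j s) then G.w Ω j s α (C ∪ D) else 0) N ∅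
          ≤ G.run Ω Z q (G.w Ω j s α)
          (fun C D => if Disjoint D (insert j s) then G.w Ω j s α (C ∪ D) else 0) N ∅ :=
        G.run_mono (fun C _ => G.w_nonneg Ω j s hα C) (fun _ _ _ _ => le_refl _) N ∅
          (Finset.disjoint_empty_left _)
      have h3 := hℓu (G.w Ω j s α) (G.w_mono Ω j s hα)
      have h4 : ∑ i ∈ P, ℓ i * G.cE Ω (insert j s) i (G.w Ω j s α)
          = ∑ i ∈ P, ℓ i * G.cJ Ω j s i f := by
        refine Finset.sum_congr rfl fun i _ => ?_
        have := G.incr_eq Ω j s hsol i
        unfold cE cJ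
        rw [this]
      simp only [hAA, hrJ]
      linarith
    have hpos := G.cE_one_pos Ω hjs
    have hlevel : ∀ f : Finset V → ℝ, Monotone f →
        G.cE Ω s j f * AA (fun _ => 1) ≤ G.cE Ω s j (fun _ => 1) * AA f := by
      intro f hf
      set μ := G.cE Ω s j f / G.cE Ω s j (fun _ => 1) with hμ
      have h1 : 0 ≤ AA (fun R => f R - μ * (fun _ => (1 : ℝ)) R) := by
        apply hlevel0
        · intro R R' h
          have := hf h
          simp only
          linarith
        · rw [G.cE_sub, hμ]
          field_simp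
          ring
      rw [hAAsub] at h1
      have h2 : μ * G.cE Ω s j (fun _ => 1) = G.cE Ω s j f := by
        rw [hμ]; field_simp
      have h3 := mul_nonneg hpos.le h1
      rw [← h2]
      linarith
    -- nonnegativity
    have hA1 : 0 ≤ AA (fun _ => 1) := by
      set u : Finset V → ℝ := fun R => if Disjoint R P then 0 else 1 with hu
      have humono : Monotone u := by
        intro R R' h
        simp only [hu]
        by_cases h1 : Disjoint R' P
        · rw [if_pos h1, if_pos (Finset.disjoint_of_subset_left h h1)]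
        · rw [if_neg h1]; split_ifs <;> norm_num
      have h1 : 0 ≤ AA (fun R => 1 - 1 * u R) := by
        simp only [hAA]
        have e1 : ∑ i ∈ P, ℓ i * G.cJ Ω j s i (fun R => 1 - 1 * u R) = 0 := by
          refine Finset.sum_eq_zero fun i hi => ?_
          have : G.cJ Ω j s i (fun R => 1 - 1 * u R) = 0 := by
            unfold cJ
            refine (G.ex_congr (g := fun _ => 0) fun S _ => ?_).trans (G.ex_const Ω 0)
            have h5 : ¬ Disjoint (G.cl S {i}) P := by
              rw [Finset.not_disjoint_iff]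
              exact ⟨i, G.subset_cl S {i} (Finset.mem_singleton_self i), hi⟩
            simp [hu, h5]
          rw [this, mul_zero]
        rw [e1, sub_zero]
        simp only [hrJ]
        refine G.run_nonneg (fun _ _ => le_refl _) (fun C D _ _ => ?_) N ∅
          (Finset.disjoint_empty_left _)
        simp only [hu]
        split_ifs <;> norm_num
      rw [hAAsub] at h1
      have h2 := hlevel u humono
      have h3 : G.cE Ω s j u < G.cE Ω s j (fun _ => 1) := by
        have h6 : 0 < G.ex Ω (fun S => if Disjoint (G.cl S {j}) s then 1 - u (G.cl S {j})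
            else 0) := by
          have := G.empty_le_ex (Finset.Subset.refl Ω)
            (f := fun S => if Disjoint (G.cl S {j}) s then 1 - u (G.cl S {j}) else 0) (m := 0)
            (fun S => by
              simp only [hu]
              split_ifs <;> norm_num)
          have hcc := G.cc_pos Ω
          simp only [cl_empty] at this
          have h7 : Disjoint ({j} : Finset V) s := by simpa using hjs
          have h8 : Disjoint ({j} : Finset V) P := by simpa using hj
          simp only [hu, if_pos h7, if_pos h8] at this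
          simp only [hu]
          linarith
        have h9 : G.ex Ω (fun S => if Disjoint (G.cl S {j}) s then 1 - u (G.cl S {j})
            else 0) = G.cE Ω s j (fun _ => 1) - G.cE Ω s j u := by
          unfold cE
          rw [← G.ex_sub]
          refine G.ex_congr fun S _ => ?_
          split_ifs <;> simp
        linarith
      by_contra hneg
      push Not at hneg
      have h4 : AA u ≤ AA (fun _ => 1) := by linarith
      nlinarith
    set lj := AA (fun _ => 1) / G.cE Ω s j (fun _ => 1) with hlj
    have hlj0 : 0 ≤ lj := div_nonneg hA1 hpos.le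
    have hljm : lj * G.cE Ω s j (fun _ => 1) = AA (fun _ => 1) := by
      rw [hlj]; field_simp
    have hsumeq : ∀ u : Finset V → ℝ,
        ∑ i ∈ insert j P, (Function.update ℓ j lj) i * G.cE Ω s i u
          = lj * G.cE Ω s j u + ∑ i ∈ P, ℓ i * G.cE Ω (insert j s) i u
            + ∑ i ∈ P, ℓ i * G.cJ Ω j s i u := by
      intro u
      rw [Finset.sum_insert hj, Function.update_self, add_assoc, ← Finset.sum_add_distrib]
      congr 1
      refine Finset.sum_congr rfl fun i hi => ?_
      have hij : i ≠ j := fun h => hj (h ▸ hi)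
      rw [Function.update_of_ne hij, G.cE_split Ω j s i u]
      ring
    have hrunsplit : ∀ u : Finset V → Finset V → ℝ,
        G.run Ω Z q (fun _ => 0) (fun C D => if Disjoint D s then u C D else 0) N ∅
          = G.run Ω Z q (fun _ => 0)
              (fun C D => if Disjoint D (insert j s) then u C D else 0) N ∅
            + G.run Ω Z q (fun _ => 0)
              (fun C D => if j ∈ D ∧ Disjoint D s then u C D else 0) N ∅ := by
      intro u
      have h1 := G.run_sub (Ω := Ω) (Z := Z) (q := q) (Φ₀ := fun _ => 0)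
        (Φ₁ := fun C D => if Disjoint D s then u C D else 0) (Φ₀' := fun _ => 0)
        (Φ₁' := fun C D => if Disjoint D (insert j s) then u C D else 0) 1 N ∅
      have h2 : G.run Ω Z q (fun _ => (0 : ℝ) - 1 * 0)
          (fun C D => (if Disjoint D s then u C D else 0)
            - 1 * (if Disjoint D (insert j s) then u C D else 0)) N ∅
          = G.run Ω Z q (fun _ => 0)
              (fun C D => if j ∈ D ∧ Disjoint D s then u C D else 0) N ∅ := by
        refine G.run_congr (fun _ _ => by ring) (fun C D _ _ => ?_) N ∅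
          (Finset.disjoint_empty_left _)
        simp only [Finset.disjoint_insert_right]
        by_cases h3 : j ∈ D <;> by_cases h4 : Disjoint D s <;> simp [h3, h4]
      linarith
    refine ⟨Function.update ℓ j lj, ?_, ?_, ?_⟩
    · intro i
      by_cases hij : i = j
      · subst hij; rw [Function.update_self]; exact hlj0
      · rw [Function.update_of_ne hij]; exact hℓ0 i
    · intro u hu
      rw [hsumeq, hrunsplit (fun C D => u (C ∪ D))]
      have h1 := hℓu u hu
      have h2 : rJ u ≤ G.run Ω Z q (fun _ => 0)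
          (fun C D => if j ∈ D ∧ Disjoint D s then u (C ∪ D) else 0) N ∅ := by
        refine G.run_mono (fun _ _ => le_refl _) (fun C D _ _ => ?_) N ∅
          (Finset.disjoint_empty_left _)
        split_ifs
        · exact hu Finset.subset_union_right
        · exact le_refl _
      have h3 := hlevel u hu
      have h4 : lj * G.cE Ω s j u ≤ AA u := by
        have h5 : G.cE Ω s j (fun _ => 1) * (lj * G.cE Ω s j u)
            ≤ G.cE Ω s j (fun _ => 1) * AA u := by
          calc _ = G.cE Ω s j u * (lj * G.cE Ω s j (fun _ => 1)) := by ring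
            _ = G.cE Ω s j u * AA (fun _ => 1) := by rw [hljm]
            _ ≤ _ := h3
        exact le_of_mul_le_mul_left h5 hpos
      simp only [hAA] at h4
      linarith
    · rw [hsumeq, hrunsplit (fun _ _ => 1), hljm, ← hℓ1]
      simp only [hAA, hrJ]
      ring

end HG

end Crest.Agent.R147.KN
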